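import Mathlib
import Crest.Prelude.Def_BoxFlow

/-! # S0170 auxiliary: shared definitions (no proofs needed here) -/

set_option autoImplicit false
open scoped ContDiff
open Crest.AnalysisR.BoxFlow

namespace Crest.Agent.S0170Aux

/-- space -/
abbrev E3 : Type := Fin 3 → ℝ
/-- space-time -/
abbrev ST : Type := ℝ × (Fin 3 → ℝ)

/-- A one-dimensional effective family: `f k` is the `k`-th derivative of `f 0`; all `f k` are
computably approximable at rational points and computably bounded. -/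
structure Eff1 (f : ℕ → ℝ → ℝ) : Prop where
  hasDeriv : ∀ k x, HasDerivAt (f k) (f (k + 1) x) x
  approx : ∃ A : ℕ × ℚ × ℕ → ℚ, Computable A ∧
    ∀ (k : ℕ) (q : ℚ) (n : ℕ), |f k (q : ℝ) - (A (k, q, n) : ℝ)| ≤ 1 / ((n : ℝ) + 1)
  bound : ∃ B : ℕ → ℕ, Computable B ∧ ∀ k x, |f k x| ≤ (B k : ℝ)

/-- A scalar space-time family indexed by lists of directions: `G ds` is the mixed derivative of
`G []` along `ds`; computably approximable at rational points, computably bounded. -/
structure SFam (G : List (Fin 4) → ST → ℝ) : Prop where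
  diff : ∀ ds p, DifferentiableAt ℝ (G ds) p
  fderiv_dir : ∀ ds p d, fderiv ℝ (G ds) p (direction d) = G (d :: ds) p
  approx : ∃ A : List (Fin 4) × (ℚ × (Fin 3 → ℚ)) × ℕ → ℚ, Computable A ∧
    ∀ (ds : List (Fin 4)) (t : ℚ) (q : Fin 3 → ℚ) (n : ℕ),
      |G ds ((t : ℝ), ratPoint q) - (A (ds, (t, q), n) : ℝ)| ≤ 1 / ((n : ℝ) + 1)
  bound : ∃ B : List (Fin 4) → ℕ, Computable B ∧ ∀ ds p, |G ds p| ≤ (B ds : ℝ)

/-- tensor product of four one-dimensional families (index 0 = time, `j+1` = `j`-th space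
coordinate), with base derivative orders `κ`, differentiated further along `ds`. -/
def tensor (F : Fin 4 → ℕ → ℝ → ℝ) (κ : Fin 4 → ℕ) (ds : List (Fin 4)) (p : ST) : ℝ :=
  F 0 (κ 0 + ds.count 0) p.1 * F 1 (κ 1 + ds.count 1) (p.2 0) *
    F 2 (κ 2 + ds.count 2) (p.2 1) * F 3 (κ 3 + ds.count 3) (p.2 2)

/-- A good velocity field, active only in the open time window `(τ0, τ1)`. -/
structure Good (τ0 τ1 : ℝ) (U : Field) : Prop where
  smooth : ContDiff ℝ ∞ U
  compact : HasCompactSupport U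
  rep : ∃ G : Fin 3 → List (Fin 4) → ST → ℝ, (∀ j, SFam (G j)) ∧ ∀ p j, U p j = G j [] p
  time : ∀ p : ST, (p.1 ≤ τ0 ∨ τ1 ≤ p.1) → U p = 0
  div : ∀ p, spaceDiv U p = 0

/-- Every point `x` of `S` is carried by `U` from `x` (up to time `τ0`) to `f x` (from time `τ1`). -/
def Moves (U : Field) (τ0 τ1 : ℝ) (S : Set E3) (f : E3 → E3) : Prop :=
  ∀ x ∈ S, ∃ γ : ℝ → E3, (∀ t, t ≤ τ0 → γ t = x) ∧ (∀ t, τ1 ≤ t → γ t = f x) ∧
    ∀ t, HasDerivAt γ (U (t, γ t)) t

/-- The family of maps `f i` on the sets `S i` can be realised simultaneously by a good field in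
any rational time window. -/
def Realizable {n : ℕ} (S : Fin n → Set E3) (f : Fin n → E3 → E3) : Prop :=
  ∀ τ0 τ1 : ℚ, τ0 < τ1 → ∃ U : Field, Good τ0 τ1 U ∧ ∀ i, Moves U τ0 τ1 (S i) (f i)

/-! ### rational configurations of boxes -/

/-- boxes `i`, `i'` (centres `c`, half-widths `w`) are separated in coordinate `j` -/
def SepAt {n : ℕ} (w c : Fin n → Fin 3 → ℚ) (i i' : Fin n) (j : Fin 3) : Prop :=
  w i j + w i' j < |c i j - c i' j|

/-- pairwise separated configuration -/
def PSep {n : ℕ} (w c : Fin n → Fin 3 → ℚ) : Prop :=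
  ∀ i i', i ≠ i' → ∃ j, SepAt w c i i' j

/-- one legal move: box `i` is translated along axis `j` to the new coordinate `v`, the swept box
being separated from every other box -/
def Step {n : ℕ} (w c c' : Fin n → Fin 3 → ℚ) : Prop :=
  ∃ (i : Fin n) (j : Fin 3) (v : ℚ), c' = Function.update c i (Function.update (c i) j v) ∧
    ∀ i', i' ≠ i → (∃ j', j' ≠ j ∧ SepAt w c i i' j') ∨
      c i' j + w i' j < min (c i j) v - w i j ∨ max (c i j) v + w i j < c i' j - w i' j

/-- the standard configuration: box `i` centred at `(i L, 0, 0)` -/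
def stdCfg (n : ℕ) (L : ℚ) : Fin n → Fin 3 → ℚ := fun i j => if j = 0 then (i : ℚ) * L else 0

end Crest.Agent.S0170Aux
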