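import Mathlib

/-! # S0170 auxiliary T1: computability of rational arithmetic

`Primcodable ℚ` is `Primcodable.ofDenumerable ℚ`, with `Denumerable ℚ := ofEncodableOfInfinite ℚ`
(rank of the raw code among all raw codes).  Everything here is about `Computable` w.r.t. that
instance.

Proof idea: `g n := enc0 (ofNat ℚ n)` (the raw code `pair (encode num) den` of the `n`-th rational)
is computable, because it enumerates increasingly the decidable set of raw codes.  Hence
`q ↦ enc0 q = g (encode q)` is computable, and a function into `ℚ` is computable as soon as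
equality with its value can be tested on raw codes (unbounded search). -/

set_option autoImplicit false
namespace Crest.Agent.S0170Aux

/-- the basic decoder: from three naturals to a rational -/
def ratOfTriple (p : ℕ × ℕ × ℕ) : ℚ := ((p.1 : ℚ) - (p.2.1 : ℚ)) / (p.2.2 : ℚ)

namespace T1
open Encodable Denumerable

theorem computable_find {α : Type*} [Primcodable α] {p : α → ℕ → Bool} (hp : Computable₂ p)
    {f : α → ℕ} (h1 : ∀ a, p a (f a) = true) (h2 : ∀ a m, m < f a → p a m = false) :
    Computable f := by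
  have := Partrec.rfind (p := fun a n => Part.some (p a n)) hp.partrec₂
  refine this.of_eq_tot (fun a => ?_)
  refine Nat.mem_rfind.2 ⟨?_, fun {m} hm => ?_⟩
  · simp [h1]
  · simp [h2 a m hm]

theorem encode_int_ofNat (n : ℕ) : encode (Int.ofNat n) = 2 * n := rfl
theorem encode_int_negSucc (n : ℕ) : encode (Int.negSucc n) = 2 * n + 1 := rfl

theorem natAbs_eq (z : ℤ) : z.natAbs = (encode z + 1) / 2 := by
  cases z with
  | ofNat n => rw [encode_int_ofNat]; simp; omega
  | negSucc n => rw [encode_int_negSucc]; simp; omega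

/-- raw code -/
def enc0 (q : ℚ) : ℕ := Nat.pair (encode q.num) q.den

theorem enc0_eq (q : ℚ) : @encode ℚ Rat.instEncodable q = enc0 q := rfl

abbrev S : Set ℕ := Set.range (@encode ℚ Rat.instEncodable)

def PS (m : ℕ) : Prop := m.unpair.2 ≠ 0 ∧ ∀ d < m.unpair.2 + 1,
  (¬ (((m.unpair.1 + 1) / 2) % d = 0 ∧ m.unpair.2 % d = 0) ∨ d = 1)

theorem primrec_PS : PrimrecPred PS := by
  have hb : Primrec (fun m : ℕ => m.unpair.2) := Primrec.snd.comp Primrec.unpair
  have hx : Primrec (fun m : ℕ => (m.unpair.1 + 1) / 2) :=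
    Primrec.nat_div.comp (Primrec.succ.comp (Primrec.fst.comp Primrec.unpair)) (Primrec.const 2)
  have hR : PrimrecRel (fun d m : ℕ => (¬ (((m.unpair.1 + 1) / 2) % d = 0 ∧ m.unpair.2 % d = 0) ∨ d = 1)) := by
    refine PrimrecPred.or (PrimrecPred.not (PrimrecPred.and ?_ ?_)) ?_
    · exact Primrec.eq.comp (Primrec.nat_mod.comp (hx.comp Primrec.snd) Primrec.fst) (Primrec.const 0)
    · exact Primrec.eq.comp (Primrec.nat_mod.comp (hb.comp Primrec.snd) Primrec.fst) (Primrec.const 0)
    · exact Primrec.eq.comp Primrec.fst (Primrec.const 1)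
  refine PrimrecPred.and (PrimrecPred.not (Primrec.eq.comp hb (Primrec.const 0))) ?_
  exact (PrimrecRel.forall_lt hR).comp (Primrec.succ.comp hb) Primrec.id

theorem coprime_iff (x b : ℕ) (hb : b ≠ 0) : Nat.Coprime x b ↔ ∀ d < b + 1, (¬ (x % d = 0 ∧ b % d = 0) ∨ d = 1) := by
  constructor
  · intro h d _
    by_cases hd : x % d = 0 ∧ b % d = 0
    · right
      exact Nat.eq_one_of_dvd_coprimes h (Nat.dvd_of_mod_eq_zero hd.1) (Nat.dvd_of_mod_eq_zero hd.2)
    · left; exact hd
  · intro h
    have h1 := h (Nat.gcd x b) (Nat.lt_succ_of_le (Nat.le_of_dvd (Nat.pos_of_ne_zero hb) (Nat.gcd_dvd_right x b)))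
    rcases h1 with h1 | h1
    · exact absurd ⟨Nat.mod_eq_zero_of_dvd (Nat.gcd_dvd_left x b), Nat.mod_eq_zero_of_dvd (Nat.gcd_dvd_right x b)⟩ h1
    · exact h1

theorem mem_S_iff (m : ℕ) : m ∈ S ↔ PS m := by
  constructor
  · rintro ⟨q, rfl⟩
    rw [enc0_eq]
    unfold PS enc0
    simp only [Nat.unpair_pair]
    refine ⟨q.den_nz, ?_⟩
    rw [← coprime_iff _ _ q.den_nz, ← natAbs_eq]
    exact q.reduced
  · rintro ⟨h1, h2⟩
    rw [← coprime_iff _ _ h1] at h2
    refine ⟨⟨ofNat ℤ m.unpair.1, m.unpair.2, h1, ?_⟩, ?_⟩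
    · rw [natAbs_eq, encode_ofNat]; exact h2
    · rw [enc0_eq]
      unfold enc0
      show Nat.pair (encode (ofNat ℤ m.unpair.1)) m.unpair.2 = m
      rw [encode_ofNat, Nat.pair_unpair]

instance : DecidablePred (· ∈ S) := @decidableRangeEncode ℚ Rat.instEncodable
instance : Infinite S := Infinite.of_injective _ (Equiv.ofInjective _ (@encode_injective ℚ Rat.instEncodable)).injective

def g (n : ℕ) : ℕ := enc0 (ofNat ℚ n)

theorem g_eq (n : ℕ) : g n = (Nat.Subtype.ofNat S n : ℕ) := by
  unfold g
  rw [← enc0_eq]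
  have : ofNat ℚ n = (@equivRangeEncode ℚ Rat.instEncodable).symm (Nat.Subtype.ofNat S n) := by
    rfl
  rw [this]
  exact congrArg Subtype.val ((@equivRangeEncode ℚ Rat.instEncodable).apply_symm_apply (Nat.Subtype.ofNat S n))


instance : DecidablePred PS := fun m => by unfold PS; infer_instance

theorem exists_gt_mem_S (x : ℕ) : ∃ m, x < m ∧ PS m := by
  have hS : S.Infinite := Set.infinite_coe_iff.1 inferInstance
  obtain ⟨b, hb, hxb⟩ := hS.exists_gt x
  exact ⟨b, hxb, (mem_S_iff b).1 hb⟩

def step (x : ℕ) : ℕ := Nat.find (exists_gt_mem_S x)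

theorem computable_step : Computable step := by
  refine computable_find (p := fun x m => decide (x < m ∧ PS m)) ?_ ?_ ?_
  · have : PrimrecPred (fun p : ℕ × ℕ => p.1 < p.2 ∧ PS p.2) :=
      PrimrecPred.and (Primrec.nat_lt.comp Primrec.fst Primrec.snd) (primrec_PS.comp Primrec.snd)
    exact this.decide.to_comp
  · intro x
    exact decide_eq_true (Nat.find_spec (exists_gt_mem_S x))
  · intro x m hm
    exact decide_eq_false (Nat.find_min (exists_gt_mem_S x) hm)

theorem g_succ (n : ℕ) : g (n + 1) = step (g n) := by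
  symm
  unfold step
  rw [Nat.find_eq_iff]
  rw [g_eq, g_eq]
  refine ⟨⟨?_, ?_⟩, ?_⟩
  · exact Nat.Subtype.lt_succ_self (Nat.Subtype.ofNat S n)
  · exact (mem_S_iff _).1 (Nat.Subtype.ofNat S (n+1)).2
  · rintro m hm ⟨h1, h2⟩
    have h3 : m ∈ S := (mem_S_iff m).2 h2
    have := Nat.Subtype.succ_le_of_lt (x := ⟨m, h3⟩) (y := Nat.Subtype.ofNat S n) h1
    exact absurd hm (not_lt.2 this)

theorem computable_g : Computable g := by
  have := Computable.nat_rec (f := fun n : ℕ => n) (g := fun _ => g 0) (h := fun _ p => step p.2)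
    Computable.id (Computable.const _) (computable_step.comp (Computable.snd.comp Computable.snd)).to₂
  refine this.of_eq (fun n => ?_)
  induction n with
  | zero => rfl
  | succ n ih => 
    show step _ = _
    rw [g_succ, ← ih]

/-- the code of a rational for the `Primcodable ℚ` instance -/
def encD (q : ℚ) : ℕ := @encode ℚ Primcodable.toEncodable q

theorem ofNat_encD (q : ℚ) : ofNat ℚ (encD q) = q := @ofNat_encode ℚ _ q

theorem encD_ofNat (n : ℕ) : encD (ofNat ℚ n) = n := @encode_ofNat ℚ _ n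

theorem computable_encD : Computable encD := Computable.encode

theorem g_encD (q : ℚ) : g (encD q) = enc0 q := by
  unfold g; rw [ofNat_encD]

theorem computable_enc0 : Computable enc0 :=
  (computable_g.comp computable_encD).of_eq g_encD

theorem enc0_injective : Function.Injective enc0 := 
  @encode_injective ℚ Rat.instEncodable

theorem computable_of_test {α : Type*} [Primcodable α] {f : α → ℚ} {t : α → ℕ → Bool}
    (ht : Computable₂ t) (h : ∀ a q, t a (enc0 q) = true ↔ q = f a) : Computable f := by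
  have key : Computable (fun a => encD (f a)) := by
    refine computable_find (p := fun a n => t a (g n)) ?_ ?_ ?_
    · exact ht.comp Computable.fst (computable_g.comp Computable.snd)
    · intro a
      show t a (g (encD (f a))) = true
      rw [g_encD, h]
    · intro a m hm
      by_contra hne
      rw [Bool.not_eq_false] at hne
      have : t a (enc0 (ofNat ℚ m)) = true := hne
      rw [h] at this
      rw [← this, encD_ofNat] at hm
      exact lt_irrefl _ hm
  exact Computable.encode_iff.1 key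


/-- decode a raw code to a triple -/
def dec0 (m : ℕ) : ℕ × ℕ × ℕ :=
  (if m.unpair.1 % 2 = 0 then m.unpair.1 / 2 else 0,
   if m.unpair.1 % 2 = 0 then 0 else (m.unpair.1 + 1) / 2, m.unpair.2)

theorem primrec_dec0 : Primrec dec0 := by
  have hk : Primrec (fun m : ℕ => m.unpair.1) := Primrec.fst.comp Primrec.unpair
  have hb : Primrec (fun m : ℕ => m.unpair.2) := Primrec.snd.comp Primrec.unpair
  have hc : PrimrecPred (fun m : ℕ => m.unpair.1 % 2 = 0) :=
    Primrec.eq.comp (Primrec.nat_mod.comp hk (Primrec.const 2)) (Primrec.const 0)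
  refine Primrec.pair ?_ (Primrec.pair ?_ hb)
  · exact Primrec.ite hc (Primrec.nat_div.comp hk (Primrec.const 2)) (Primrec.const 0)
  · exact Primrec.ite hc (Primrec.const 0)
      (Primrec.nat_div.comp (Primrec.succ.comp hk) (Primrec.const 2))

def phi (q : ℚ) : ℕ × ℕ × ℕ := dec0 (enc0 q)

theorem computable_phi : Computable phi := primrec_dec0.to_comp.comp computable_enc0

theorem phi_eq (q : ℚ) : phi q = (q.num.toNat, (-q.num).toNat, q.den) := by
  unfold phi dec0 enc0
  simp only [Nat.unpair_pair]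
  cases q.num with
  | ofNat n =>
    rw [encode_int_ofNat]
    have h1 : 2 * n % 2 = 0 := by omega
    have h2 : 2 * n / 2 = n := by omega
    simp [h2]
  | negSucc n =>
    rw [encode_int_negSucc]
    have h1 : ¬ ((2 * n + 1) % 2 = 0) := by omega
    have h2 : (2 * n + 1 + 1) / 2 = n + 1 := by omega
    rw [if_neg h1, if_neg h1, h2]
    simp [Int.neg_negSucc]

theorem phi_den (q : ℚ) : (phi q).2.2 ≠ 0 := by
  rw [phi_eq]; exact q.den_nz

theorem ratOfTriple_phi (q : ℚ) : ratOfTriple (phi q) = q := by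
  rw [phi_eq]
  unfold ratOfTriple
  simp only
  have h : ((q.num.toNat : ℤ) - ((-q.num).toNat : ℤ)) = q.num := by omega
  have h' : ((q.num.toNat : ℚ) - ((-q.num).toNat : ℚ)) = (q.num : ℚ) := by exact_mod_cast h
  rw [h']
  exact Rat.num_div_den q

/-- equality test for triples with nonzero denominators -/
def eqT (s t : ℕ × ℕ × ℕ) : Bool :=
  decide (s.1 * t.2.2 + t.2.1 * s.2.2 = t.1 * s.2.2 + s.2.1 * t.2.2)

theorem eqT_iff (s t : ℕ × ℕ × ℕ) (hs : s.2.2 ≠ 0) (ht : t.2.2 ≠ 0) :
    eqT s t = true ↔ ratOfTriple s = ratOfTriple t := by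
  unfold eqT ratOfTriple
  rw [decide_eq_true_iff]
  have hs' : (s.2.2 : ℚ) ≠ 0 := by exact_mod_cast hs
  have ht' : (t.2.2 : ℚ) ≠ 0 := by exact_mod_cast ht
  rw [div_eq_div_iff hs' ht']
  constructor
  · intro h
    have h' : (s.1 : ℚ) * t.2.2 + t.2.1 * s.2.2 = t.1 * s.2.2 + s.2.1 * t.2.2 := by exact_mod_cast h
    linarith
  · intro h
    have h' : (s.1 : ℚ) * t.2.2 + t.2.1 * s.2.2 = t.1 * s.2.2 + s.2.1 * t.2.2 := by linarith
    exact_mod_cast h'

section proj
variable {α : Type*} [Primcodable α]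

theorem p1 {f : α → ℕ × ℕ × ℕ} (hf : Primrec f) : Primrec (fun a => (f a).1) := Primrec.fst.comp hf
theorem p2 {f : α → ℕ × ℕ × ℕ} (hf : Primrec f) : Primrec (fun a => (f a).2.1) :=
  Primrec.fst.comp (Primrec.snd.comp hf)
theorem p3 {f : α → ℕ × ℕ × ℕ} (hf : Primrec f) : Primrec (fun a => (f a).2.2) :=
  Primrec.snd.comp (Primrec.snd.comp hf)
theorem padd {f g : α → ℕ} (hf : Primrec f) (hg : Primrec g) : Primrec (fun a => f a + g a) :=
  Primrec.nat_add.comp hf hg
theorem pmul {f g : α → ℕ} (hf : Primrec f) (hg : Primrec g) : Primrec (fun a => f a * g a) :=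
  Primrec.nat_mul.comp hf hg
theorem psub {f g : α → ℕ} (hf : Primrec f) (hg : Primrec g) : Primrec (fun a => f a - g a) :=
  Primrec.nat_sub.comp hf hg

end proj

theorem primrec_eqT : Primrec₂ eqT := by
  have hs : Primrec (fun p : (ℕ × ℕ × ℕ) × (ℕ × ℕ × ℕ) => p.1) := Primrec.fst
  have ht : Primrec (fun p : (ℕ × ℕ × ℕ) × (ℕ × ℕ × ℕ) => p.2) := Primrec.snd
  have : PrimrecPred (fun p : (ℕ × ℕ × ℕ) × (ℕ × ℕ × ℕ) =>
      p.1.1 * p.2.2.2 + p.2.2.1 * p.1.2.2 = p.2.1 * p.1.2.2 + p.1.2.1 * p.2.2.2) :=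
    Primrec.eq.comp (padd (pmul (p1 hs) (p3 ht)) (pmul (p2 ht) (p3 hs)))
      (padd (pmul (p1 ht) (p3 hs)) (pmul (p2 hs) (p3 ht)))
  exact this.decide

/-- replace zero denominators -/
def norm0 (t : ℕ × ℕ × ℕ) : ℕ × ℕ × ℕ := if t.2.2 = 0 then (0, 0, 1) else t

theorem primrec_norm0 : Primrec norm0 :=
  Primrec.ite (Primrec.eq.comp (p3 Primrec.id) (Primrec.const 0)) (Primrec.const _) Primrec.id

theorem norm0_den (t : ℕ × ℕ × ℕ) : (norm0 t).2.2 ≠ 0 := by
  unfold norm0
  split_ifs with h
  · simp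
  · exact h

theorem ratOfTriple_norm0 (t : ℕ × ℕ × ℕ) : ratOfTriple (norm0 t) = ratOfTriple t := by
  unfold norm0
  split_ifs with h
  · simp [ratOfTriple, h]
  · rfl

end T1

open T1

theorem computable_ratOfTriple : Computable ratOfTriple := by
  refine computable_of_test (t := fun t m => eqT (dec0 m) (norm0 t)) ?_ ?_
  · exact (primrec_eqT.comp (primrec_dec0.comp Primrec.snd) (primrec_norm0.comp Primrec.fst)).to_comp
  · intro t q
    show eqT (phi q) (norm0 t) = true ↔ _
    rw [eqT_iff _ _ (phi_den q) (norm0_den t), ratOfTriple_phi, ratOfTriple_norm0]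

/-- some computable section of `ratOfTriple` -/
theorem exists_computable_tripleOfRat :
    ∃ φ : ℚ → ℕ × ℕ × ℕ, Computable φ ∧ ∀ q, ratOfTriple (φ q) = q :=
  ⟨phi, computable_phi, ratOfTriple_phi⟩


namespace T1

theorem computable_of_triple {α : Type*} [Primcodable α] {f : α → ℚ} {t : α → ℕ × ℕ × ℕ}
    (ht : Computable t) (h : ∀ a, ratOfTriple (t a) = f a) : Computable f :=
  (computable_ratOfTriple.comp ht).of_eq h

/-- a binary operation on rationals realised by a primitive recursive operation on triples -/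
theorem computable₂_of_triple {f : ℚ → ℚ → ℚ} {t : (ℕ × ℕ × ℕ) → (ℕ × ℕ × ℕ) → ℕ × ℕ × ℕ}
    (ht : Primrec₂ t) (h : ∀ a b, ratOfTriple (t (phi a) (phi b)) = f a b) : Computable₂ f :=
  computable_of_triple (t := fun p : ℚ × ℚ => t (phi p.1) (phi p.2))
    (ht.to_comp.comp (computable_phi.comp Computable.fst) (computable_phi.comp Computable.snd))
    (fun p => h p.1 p.2)

theorem computable₁_of_triple {f : ℚ → ℚ} {t : (ℕ × ℕ × ℕ) → ℕ × ℕ × ℕ}
    (ht : Primrec t) (h : ∀ a, ratOfTriple (t (phi a)) = f a) : Computable f :=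
  computable_of_triple (t := fun p : ℚ => t (phi p))
    (ht.to_comp.comp computable_phi) h

theorem hs : Primrec (fun p : (ℕ × ℕ × ℕ) × (ℕ × ℕ × ℕ) => p.1) := Primrec.fst
theorem ht : Primrec (fun p : (ℕ × ℕ × ℕ) × (ℕ × ℕ × ℕ) => p.2) := Primrec.snd

end T1

theorem rat_add : Computable₂ (fun a b : ℚ => a + b) := by
  refine computable₂_of_triple
    (t := fun s t => (s.1 * t.2.2 + t.1 * s.2.2, s.2.1 * t.2.2 + t.2.1 * s.2.2, s.2.2 * t.2.2)) ?_ ?_
  · exact Primrec.pair (padd (pmul (p1 hs) (p3 ht)) (pmul (p1 ht) (p3 hs)))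
      (Primrec.pair (padd (pmul (p2 hs) (p3 ht)) (pmul (p2 ht) (p3 hs))) (pmul (p3 hs) (p3 ht)))
  · intro a b
    have ha : ((phi a).2.2 : ℚ) ≠ 0 := by exact_mod_cast phi_den a
    have hb : ((phi b).2.2 : ℚ) ≠ 0 := by exact_mod_cast phi_den b
    conv_rhs => rw [← ratOfTriple_phi a, ← ratOfTriple_phi b]
    unfold ratOfTriple
    push_cast
    field_simp
    ring

theorem rat_mul : Computable₂ (fun a b : ℚ => a * b) := by
  refine computable₂_of_triple
    (t := fun s t => (s.1 * t.1 + s.2.1 * t.2.1, s.1 * t.2.1 + s.2.1 * t.1, s.2.2 * t.2.2)) ?_ ?_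
  · exact Primrec.pair (padd (pmul (p1 hs) (p1 ht)) (pmul (p2 hs) (p2 ht)))
      (Primrec.pair (padd (pmul (p1 hs) (p2 ht)) (pmul (p2 hs) (p1 ht))) (pmul (p3 hs) (p3 ht)))
  · intro a b
    have ha : ((phi a).2.2 : ℚ) ≠ 0 := by exact_mod_cast phi_den a
    have hb : ((phi b).2.2 : ℚ) ≠ 0 := by exact_mod_cast phi_den b
    conv_rhs => rw [← ratOfTriple_phi a, ← ratOfTriple_phi b]
    unfold ratOfTriple
    push_cast
    field_simp
    ring

theorem rat_neg : Computable (fun a : ℚ => -a) := by
  refine computable₁_of_triple (t := fun s => (s.2.1, s.1, s.2.2)) ?_ ?_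
  · exact Primrec.pair (p2 Primrec.id) (Primrec.pair (p1 Primrec.id) (p3 Primrec.id))
  · intro a
    conv_rhs => rw [← ratOfTriple_phi a]
    unfold ratOfTriple
    ring

theorem rat_sub : Computable₂ (fun a b : ℚ => a - b) :=
  (rat_add.comp Computable.fst (rat_neg.comp Computable.snd)).of_eq
    (fun p => (sub_eq_add_neg p.1 p.2).symm)

theorem rat_inv : Computable (fun a : ℚ => a⁻¹) := by
  refine computable₁_of_triple
    (t := fun s => if s.2.1 ≤ s.1 then (s.2.2, 0, s.1 - s.2.1) else (0, s.2.2, s.2.1 - s.1)) ?_ ?_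
  · exact Primrec.ite (Primrec.nat_le.comp (p2 Primrec.id) (p1 Primrec.id))
      (Primrec.pair (p3 Primrec.id) (Primrec.pair (Primrec.const 0) (psub (p1 Primrec.id) (p2 Primrec.id))))
      (Primrec.pair (Primrec.const 0) (Primrec.pair (p3 Primrec.id) (psub (p2 Primrec.id) (p1 Primrec.id))))
  · intro a
    conv_rhs => rw [← ratOfTriple_phi a]
    split_ifs with h
    · unfold ratOfTriple
      simp only
      rw [Nat.cast_sub h]
      simp
    · unfold ratOfTriple
      simp only
      rw [Nat.cast_sub (le_of_not_ge h)]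
      rw [inv_div, Nat.cast_zero, zero_sub, neg_div, ← div_neg, neg_sub]

theorem rat_div : Computable₂ (fun a b : ℚ => a / b) :=
  (rat_mul.comp Computable.fst (rat_inv.comp Computable.snd)).of_eq
    (fun p => (div_eq_mul_inv p.1 p.2).symm)

theorem rat_natCast : Computable (fun n : ℕ => (n : ℚ)) := by
  refine computable_of_triple (t := fun n : ℕ => (n, 0, 1)) ?_ ?_
  · exact (Primrec.pair Primrec.id (Primrec.const (0, 1))).to_comp
  · intro n
    simp [ratOfTriple]

theorem rat_pow : Computable₂ (fun (a : ℚ) (k : ℕ) => a ^ k) := by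
  have := Computable.nat_rec (f := fun p : ℚ × ℕ => p.2) (g := fun _ => (1 : ℚ))
    (h := fun p r => r.2 * p.1) Computable.snd (Computable.const _)
    (rat_mul.comp (Computable.snd.comp Computable.snd) (Computable.fst.comp Computable.fst)).to₂
  refine this.of_eq ?_
  rintro ⟨a, k⟩
  simp only
  induction k with
  | zero => simp
  | succ k ih => simp only [pow_succ]; rw [ih]

theorem rat_le : Computable₂ (fun a b : ℚ => decide (a ≤ b)) := by
  have h1 : PrimrecPred (fun p : (ℕ × ℕ × ℕ) × (ℕ × ℕ × ℕ) =>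
      p.1.1 * p.2.2.2 + p.2.2.1 * p.1.2.2 ≤ p.2.1 * p.1.2.2 + p.1.2.1 * p.2.2.2) :=
    Primrec.nat_le.comp (padd (pmul (p1 hs) (p3 ht)) (pmul (p2 ht) (p3 hs)))
      (padd (pmul (p1 ht) (p3 hs)) (pmul (p2 hs) (p3 ht)))
  have h2 := h1.decide.to_comp.comp
    ((computable_phi.comp Computable.fst).pair (computable_phi.comp Computable.snd) :
      Computable (fun p : ℚ × ℚ => (phi p.1, phi p.2)))
  refine h2.of_eq ?_
  rintro ⟨a, b⟩
  simp only
  rw [decide_eq_decide]
  have ha : (0 : ℚ) < ((phi a).2.2 : ℚ) := by exact_mod_cast Nat.pos_of_ne_zero (phi_den a)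
  have hb : (0 : ℚ) < ((phi b).2.2 : ℚ) := by exact_mod_cast Nat.pos_of_ne_zero (phi_den b)
  conv_rhs => rw [← ratOfTriple_phi a, ← ratOfTriple_phi b]
  unfold ratOfTriple
  rw [div_le_div_iff₀ ha hb]
  constructor
  · intro h
    have h' : ((phi a).1 : ℚ) * (phi b).2.2 + (phi b).2.1 * (phi a).2.2
        ≤ (phi b).1 * (phi a).2.2 + (phi a).2.1 * (phi b).2.2 := by exact_mod_cast h
    linarith
  · intro h
    have h' : ((phi a).1 : ℚ) * (phi b).2.2 + (phi b).2.1 * (phi a).2.2
        ≤ (phi b).1 * (phi a).2.2 + (phi a).2.1 * (phi b).2.2 := by linarith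
    exact_mod_cast h'

theorem rat_lt : Computable₂ (fun a b : ℚ => decide (a < b)) := by
  have := Primrec.not.to_comp.comp (rat_le.comp Computable.snd Computable.fst :
    Computable (fun p : ℚ × ℚ => decide (p.2 ≤ p.1)))
  refine this.of_eq ?_
  rintro ⟨a, b⟩
  simp only
  rw [← decide_not, decide_eq_decide, not_le]

/-- a natural number upper bound of `|a|` -/
theorem rat_natAbs_num : Computable (fun a : ℚ => a.num.natAbs) := by
  have := (padd (p1 Primrec.id) (p2 Primrec.id)).to_comp.comp computable_phi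
  refine this.of_eq ?_
  intro a
  simp only [id, phi_eq]
  omega

theorem rat_den : Computable (fun a : ℚ => a.den) := by
  have := (p3 Primrec.id).to_comp.comp computable_phi
  refine this.of_eq ?_
  intro a
  simp only [id, phi_eq]

/-- if-then-else for computable functions with a computable Boolean test -/
theorem comp_ite {α σ : Type*} [Primcodable α] [Primcodable σ] {c : α → Prop} [DecidablePred c]
    {f g : α → σ} (hc : Computable (fun a => decide (c a))) (hf : Computable f)
    (hg : Computable g) : Computable (fun a => if c a then f a else g a) := by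
  refine (Computable.cond hc hf hg).of_eq ?_
  intro a
  by_cases h : c a <;> simp [h]

theorem rat_abs : Computable (fun a : ℚ => |a|) := by
  have := comp_ite (c := fun a : ℚ => 0 ≤ a) (rat_le.comp (Computable.const 0) Computable.id)
    Computable.id rat_neg
  refine this.of_eq ?_
  intro a
  split_ifs with h
  · exact (abs_of_nonneg h).symm
  · exact (abs_of_neg (not_le.1 h)).symm

/-- finite sums of computable rational functions -/
theorem rat_sum {α : Type*} [Primcodable α] {F : α → ℕ → ℚ} {N : α → ℕ}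
    (hF : Computable₂ F) (hN : Computable N) :
    Computable (fun a => ∑ i ∈ Finset.range (N a), F a i) := by
  have := Computable.nat_rec (f := N) (g := fun _ => (0 : ℚ))
    (h := fun a r => r.2 + F a r.1) hN (Computable.const _)
    (rat_add.comp (Computable.snd.comp Computable.snd)
      (hF.comp Computable.fst (Computable.fst.comp Computable.snd))).to₂
  refine this.of_eq ?_
  intro a
  generalize N a = n
  induction n with
  | zero => simp
  | succ k ih => simp only [Finset.sum_range_succ]; rw [ih]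

theorem nat_factorial : Computable (fun n : ℕ => n.factorial) := by
  have := Primrec.nat_rec₁ (f := fun n r => (n + 1) * r) 1
    (pmul (Primrec.succ.comp Primrec.fst) Primrec.snd)
  refine this.to_comp.of_eq ?_
  intro n
  induction n with
  | zero => rfl
  | succ k ih => simp only [Nat.factorial_succ]; rw [ih]

theorem nat_pow' : Computable₂ (fun n k : ℕ => n ^ k) := by
  have := Primrec.nat_rec' (f := fun p : ℕ × ℕ => p.2) (g := fun _ => 1)
    (h := fun p r => r.2 * p.1) Primrec.snd (Primrec.const _)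
    (pmul (Primrec.snd.comp Primrec.snd) (Primrec.fst.comp Primrec.fst))
  refine this.to_comp.of_eq ?_
  rintro ⟨a, k⟩
  simp only
  induction k with
  | zero => simp
  | succ k ih => simp only [pow_succ]; rw [ih]

theorem nat_choose : Computable₂ (fun n k : ℕ => n.choose k) := by
  have hf : Computable (fun n : ℕ => n.factorial) := nat_factorial
  have h1 : Computable (fun p : ℕ × ℕ => p.1.factorial / (p.2.factorial * (p.1 - p.2).factorial)) :=
    Primrec.nat_div.to_comp.comp (hf.comp Computable.fst)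
      (Primrec.nat_mul.to_comp.comp (hf.comp Computable.snd)
        (hf.comp (Primrec.nat_sub.to_comp.comp Computable.fst Computable.snd)))
  have h2 := comp_ite (c := fun p : ℕ × ℕ => p.2 ≤ p.1)
    (Primrec.nat_le.comp Primrec.snd Primrec.fst).decide.to_comp h1 (Computable.const 0)
  refine h2.of_eq ?_
  rintro ⟨n, k⟩
  simp only
  split_ifs with h
  · exact (Nat.choose_eq_factorial_div_factorial h).symm
  · exact (Nat.choose_eq_zero_of_lt (not_le.1 h)).symm

end Crest.Agent.S0170Aux
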