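import Mathlib
import Crest.Agent.S0170Aux.Defs
import Crest.Agent.S0170Aux.RatComp

/-! # S0170 auxiliary T6b: closure of scalar families, and `Effective` from families -/

set_option autoImplicit false
open Crest.AnalysisR.BoxFlow

namespace Crest.Agent.S0170Aux

namespace T6b

/-- a function into `Fin n → σ` is computable as soon as all its components are -/
theorem computable_pi {α σ : Type*} [Primcodable α] [Primcodable σ] {n : ℕ}
    {f : Fin n → α → σ} (hf : ∀ i, Computable (f i)) : Computable (fun a i => f i a) :=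
  (Primrec.vector_get'.to_comp.comp (Computable.vector_ofFn hf)).of_eq fun a => by
    funext i; simp

theorem direction_succ (j : Fin 3) : direction j.succ = (0, Pi.single j 1) := by
  simp [direction, Fin.succ_ne_zero]

theorem inv_bound (n : ℕ) : (0 : ℝ) ≤ 1 / ((n : ℝ) + 1) := by positivity

end T6b

theorem SFam.zero : SFam (fun _ _ => 0) where
  diff := fun _ _ => differentiableAt_const _
  fderiv_dir := fun _ _ _ => by simp
  approx := ⟨fun _ => 0, Computable.const 0, fun _ _ _ n => by
    simpa using T6b.inv_bound n⟩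
  bound := ⟨fun _ => 0, Computable.const 0, fun _ _ => by simp⟩

theorem SFam.neg {G : List (Fin 4) → ST → ℝ} (hG : SFam G) : SFam (fun ds p => - G ds p) where
  diff := fun ds p => (hG.diff ds p).neg
  fderiv_dir := fun ds p d => by
    have h : fderiv ℝ (fun p => - G ds p) p = - fderiv ℝ (G ds) p := fderiv_neg
    rw [h]
    simp [hG.fderiv_dir ds p d]
  approx := by
    obtain ⟨A, hA, hAe⟩ := hG.approx
    refine ⟨fun x => - A x, rat_neg.comp hA, fun ds t q n => ?_⟩
    have := hAe ds t q n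
    rw [abs_sub_comm] at this
    push_cast
    have e : - G ds ((t : ℝ), ratPoint q) - - (A (ds, (t, q), n) : ℝ)
        = (A (ds, (t, q), n) : ℝ) - G ds ((t : ℝ), ratPoint q) := by ring
    rw [e]; exact this
  bound := by
    obtain ⟨B, hB, hBe⟩ := hG.bound
    exact ⟨B, hB, fun ds p => by rw [abs_neg]; exact hBe ds p⟩

theorem SFam.add {G H : List (Fin 4) → ST → ℝ} (hG : SFam G) (hH : SFam H) :
    SFam (fun ds p => G ds p + H ds p) where
  diff := fun ds p => (hG.diff ds p).add (hH.diff ds p)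
  fderiv_dir := fun ds p d => by
    have h : fderiv ℝ (fun p => G ds p + H ds p) p = fderiv ℝ (G ds) p + fderiv ℝ (H ds) p :=
      fderiv_fun_add (hG.diff ds p) (hH.diff ds p)
    rw [h]
    simp [hG.fderiv_dir ds p d, hH.fderiv_dir ds p d]
  approx := by
    obtain ⟨A, hA, hAe⟩ := hG.approx
    obtain ⟨A', hA', hAe'⟩ := hH.approx
    have hre : Computable (fun x : List (Fin 4) × (ℚ × (Fin 3 → ℚ)) × ℕ =>
        (x.1, x.2.1, 2 * x.2.2 + 1)) := by
      refine Computable.pair Computable.fst (Computable.pair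
        (Computable.fst.comp Computable.snd) ?_)
      exact (Primrec.succ.comp (Primrec.nat_mul.comp (Primrec.const 2)
        (Primrec.snd.comp Primrec.snd))).to_comp
    refine ⟨fun x => A (x.1, x.2.1, 2 * x.2.2 + 1) + A' (x.1, x.2.1, 2 * x.2.2 + 1),
      rat_add.comp (hA.comp hre) (hA'.comp hre), fun ds t q n => ?_⟩
    have h1 := hAe ds t q (2 * n + 1)
    have h2 := hAe' ds t q (2 * n + 1)
    have e : (1 : ℝ) / (((2 * n + 1 : ℕ) : ℝ) + 1) + 1 / (((2 * n + 1 : ℕ) : ℝ) + 1)
        = 1 / ((n : ℝ) + 1) := by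
      push_cast
      field_simp
      ring
    push_cast
    calc |G ds ((t : ℝ), ratPoint q) + H ds ((t : ℝ), ratPoint q)
          - ((A (ds, (t, q), 2 * n + 1) : ℝ) + (A' (ds, (t, q), 2 * n + 1) : ℝ))|
        = |(G ds ((t : ℝ), ratPoint q) - (A (ds, (t, q), 2 * n + 1) : ℝ))
          + (H ds ((t : ℝ), ratPoint q) - (A' (ds, (t, q), 2 * n + 1) : ℝ))| := by
          congr 1; ring
      _ ≤ _ := abs_add_le _ _
      _ ≤ 1 / (((2 * n + 1 : ℕ) : ℝ) + 1) + 1 / (((2 * n + 1 : ℕ) : ℝ) + 1) := add_le_add h1 h2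
      _ = _ := e
  bound := by
    obtain ⟨B, hB, hBe⟩ := hG.bound
    obtain ⟨B', hB', hBe'⟩ := hH.bound
    refine ⟨fun ds => B ds + B' ds, Primrec.nat_add.to_comp.comp hB hB', fun ds p => ?_⟩
    push_cast
    exact (abs_add_le _ _).trans (add_le_add (hBe ds p) (hBe' ds p))

theorem mixedDeriv_eq_of_sfam (U : Field) (G : Fin 3 → List (Fin 4) → ST → ℝ)
    (hG : ∀ j, SFam (G j)) (hU : ∀ p j, U p j = G j [] p) (ds : List (Fin 4)) (p : ST)
    (j : Fin 3) : mixedDeriv ds U p j = G j ds p := by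
  induction ds generalizing p j with
  | nil => exact hU p j
  | cons d ds ih =>
    have h : mixedDeriv ds U = fun p j => G j ds p := by
      funext p j; exact ih p j
    show fderiv ℝ (mixedDeriv ds U) p (direction d) j = G j (d :: ds) p
    rw [h, fderiv_pi (fun i => (hG i).diff ds p)]
    simp only [ContinuousLinearMap.coe_pi']
    exact (hG j).fderiv_dir ds p d

theorem effective_of_sfam (U : Field) (G : Fin 3 → List (Fin 4) → ST → ℝ)
    (hG : ∀ j, SFam (G j)) (hU : ∀ p j, U p j = G j [] p) : Effective U := by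
  choose A hA hAe using fun j => (hG j).approx
  choose B hB hBe using fun j => (hG j).bound
  refine ⟨fun x j => A j x, fun ds => B 0 ds + B 1 ds + B 2 ds, T6b.computable_pi hA,
    Primrec.nat_add.to_comp.comp (Primrec.nat_add.to_comp.comp (hB 0) (hB 1)) (hB 2), ?_, ?_⟩
  · intro ds t q n j
    rw [mixedDeriv_eq_of_sfam U G hG hU]
    exact hAe j ds t q n
  · intro ds p j
    rw [mixedDeriv_eq_of_sfam U G hG hU]
    refine (hBe j ds p).trans ?_
    have h0 : (0 : ℝ) ≤ B 0 ds := Nat.cast_nonneg _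
    have h1 : (0 : ℝ) ≤ B 1 ds := Nat.cast_nonneg _
    have h2 : (0 : ℝ) ≤ B 2 ds := Nat.cast_nonneg _
    push_cast
    fin_cases j <;> simp <;> linarith

theorem spaceDiv_eq_of_sfam (U : Field) (G : Fin 3 → List (Fin 4) → ST → ℝ)
    (hG : ∀ j, SFam (G j)) (hU : ∀ p j, U p j = G j [] p) (p : ST) :
    spaceDiv U p = ∑ j : Fin 3, G j [j.succ] p := by
  unfold spaceDiv
  refine Finset.sum_congr rfl fun j _ => ?_
  have := mixedDeriv_eq_of_sfam U G hG hU [j.succ] p j
  rw [← this, ← T6b.direction_succ]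
  rfl

end Crest.Agent.S0170Aux
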