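import Mathlib
import Crest.Agent.S0170Aux.Defs
import Crest.Agent.S0170Aux.SFamBasic

/-! # S0170 auxiliary T13: algebra of good fields, `Moves`, `Realizable` -/

set_option autoImplicit false
open scoped ContDiff
open Crest.AnalysisR.BoxFlow

namespace Crest.Agent.S0170Aux

theorem Good.zero (τ0 τ1 : ℝ) : Good τ0 τ1 (fun _ => 0) := by
  refine ⟨contDiff_const, HasCompactSupport.zero, ⟨fun _ _ _ => 0, fun _ => SFam.zero, ?_⟩, ?_, ?_⟩
  · intro p j; rfl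
  · intro p _; rfl
  · intro p
    simp [spaceDiv]

theorem Good.add {τ0 τ1 τ2 : ℝ} (h01 : τ0 ≤ τ1) (h12 : τ1 ≤ τ2) {U V : Field}
    (hU : Good τ0 τ1 U) (hV : Good τ1 τ2 V) : Good τ0 τ2 (U + V) := by
  obtain ⟨GU, hGU, hGU'⟩ := hU.rep
  obtain ⟨GV, hGV, hGV'⟩ := hV.rep
  refine ⟨hU.smooth.add hV.smooth, hU.compact.add hV.compact,
    ⟨fun j ds p => GU j ds p + GV j ds p, fun j => (hGU j).add (hGV j), ?_⟩, ?_, ?_⟩
  · intro p j
    simp [hGU', hGV']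
  · intro p hp
    have h1 : U p = 0 := hU.time p (hp.imp id (fun h => h12.trans h))
    have h2 : V p = 0 := hV.time p (hp.imp (fun h => h.trans h01) id)
    simp [h1, h2]
  · intro p
    have dU : DifferentiableAt ℝ U p := (hU.smooth.differentiable (by simp)) p
    have dV : DifferentiableAt ℝ V p := (hV.smooth.differentiable (by simp)) p
    have h1 := hU.div p
    have h2 := hV.div p
    unfold spaceDiv at *
    rw [fderiv_add dU dV]
    simp only [ContinuousLinearMap.add_apply, Pi.add_apply, Finset.sum_add_distrib, h1, h2,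
      add_zero]

/-- concatenation; curve `γ = γ₁ + γ₂ - f x` -/
theorem Moves.comp {τ0 τ1 τ2 : ℝ} (h01 : τ0 ≤ τ1) (h12 : τ1 ≤ τ2) {U V : Field}
    (hU : Good τ0 τ1 U) (hV : Good τ1 τ2 V) {S S' : Set E3} {f g : E3 → E3}
    (hf : Moves U τ0 τ1 S f) (hS : Set.MapsTo f S S') (hg : Moves V τ1 τ2 S' g) :
    Moves (U + V) τ0 τ2 S (g ∘ f) := by
  intro x hx
  obtain ⟨γ₁, a1, b1, d1⟩ := hf x hx
  obtain ⟨γ₂, a2, b2, d2⟩ := hg (f x) (hS hx)
  refine ⟨fun t => γ₁ t + γ₂ t - f x, ?_, ?_, ?_⟩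
  · intro t ht
    simp [a1 t ht, a2 t (ht.trans h01)]
  · intro t ht
    simp [b1 t (h12.trans ht), b2 t ht]
  · intro t
    have hd : HasDerivAt (fun t => γ₁ t + γ₂ t - f x) (U (t, γ₁ t) + V (t, γ₂ t)) t :=
      ((d1 t).add (d2 t)).sub_const (f x)
    convert hd using 1
    rcases le_total t τ1 with ht | ht
    · have e2 : γ₂ t = f x := a2 t ht
      have v1 : V (t, γ₁ t + γ₂ t - f x) = 0 := hV.time _ (Or.inl ht)
      have v2 : V (t, γ₂ t) = 0 := hV.time _ (Or.inl ht)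
      simp only [Pi.add_apply, v1, v2, add_zero]
      rw [e2]; simp
    · have e1 : γ₁ t = f x := b1 t ht
      have u1 : U (t, γ₁ t + γ₂ t - f x) = 0 := hU.time _ (Or.inr ht)
      have u2 : U (t, γ₁ t) = 0 := hU.time _ (Or.inr ht)
      simp only [Pi.add_apply, u1, u2, zero_add]
      rw [e1]; simp

theorem Realizable.refl {n : ℕ} (S : Fin n → Set E3) : Realizable S (fun _ => id) := by
  intro τ0 τ1 _
  refine ⟨fun _ => 0, Good.zero _ _, fun i x _ => ⟨fun _ => x, fun _ _ => rfl, fun _ _ => rfl, ?_⟩⟩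
  intro t
  exact hasDerivAt_const t x

theorem Realizable.comp {n : ℕ} {S S' : Fin n → Set E3} {f g : Fin n → E3 → E3}
    (hf : Realizable S f) (hS : ∀ i, Set.MapsTo (f i) (S i) (S' i)) (hg : Realizable S' g) :
    Realizable S (fun i => g i ∘ f i) := by
  intro τ0 τ1 hτ
  have h1 : τ0 < (τ0 + τ1) / 2 := by linarith
  have h2 : (τ0 + τ1) / 2 < τ1 := by linarith
  obtain ⟨U, hU, hUm⟩ := hf τ0 ((τ0 + τ1) / 2) h1
  obtain ⟨V, hV, hVm⟩ := hg ((τ0 + τ1) / 2) τ1 h2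
  have h1' : (τ0 : ℝ) ≤ (((τ0 + τ1) / 2 : ℚ) : ℝ) := by exact_mod_cast h1.le
  have h2' : (((τ0 + τ1) / 2 : ℚ) : ℝ) ≤ (τ1 : ℝ) := by exact_mod_cast h2.le
  exact ⟨U + V, hU.add h1' h2' hV, fun i => Moves.comp h1' h2' hU hV (hUm i) (hS i) (hVm i)⟩

theorem Realizable.mono {n : ℕ} {S S' : Fin n → Set E3} {f : Fin n → E3 → E3}
    (hf : Realizable S' f) (hS : ∀ i, S i ⊆ S' i) : Realizable S f := by
  intro τ0 τ1 hτ
  obtain ⟨U, hU, hUm⟩ := hf τ0 τ1 hτ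
  exact ⟨U, hU, fun i x hx => hUm i x (hS i hx)⟩

theorem Realizable.congr {n : ℕ} {S : Fin n → Set E3} {f f' : Fin n → E3 → E3}
    (hf : Realizable S f) (h : ∀ i, ∀ x ∈ S i, f i x = f' i x) : Realizable S f' := by
  intro τ0 τ1 hτ
  obtain ⟨U, hU, hUm⟩ := hf τ0 τ1 hτ
  refine ⟨U, hU, fun i x hx => ?_⟩
  obtain ⟨γ, a, b, d⟩ := hUm i x hx
  exact ⟨γ, a, fun t ht => (b t ht).trans (h i x hx), d⟩

end Crest.Agent.S0170Aux
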