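import Mathlib
import Crest.Prelude.Def_BoxFlow

/-! # S0170 auxiliary T7: global flow of a smooth compactly supported time-dependent field -/

set_option autoImplicit false
open scoped ContDiff
open Crest.AnalysisR.BoxFlow

namespace Crest.Agent.S0170Aux

namespace T7

open Set Metric
open scoped NNReal Topology

/-- a smooth compactly supported field is globally Lipschitz in the space variable, uniformly in
time -/
theorem exists_lipschitz (U : Field) (hU : ContDiff ℝ ∞ U) (hc : HasCompactSupport U) :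
    ∃ K : ℝ≥0, ∀ t : ℝ, LipschitzWith K (fun y : Fin 3 → ℝ => U (t, y)) := by
  obtain ⟨K, hK⟩ := ContDiff.lipschitzWith_of_hasCompactSupport hc hU (by simp)
  refine ⟨K, fun t => ?_⟩
  have h1 : LipschitzWith 1 (fun y : Fin 3 → ℝ => ((t, y) : ℝ × (Fin 3 → ℝ))) :=
    LipschitzWith.prodMk_left t
  have h2 := hK.comp h1
  rw [mul_one] at h2
  exact h2

theorem exists_bound (U : Field) (hU : ContDiff ℝ ∞ U) (hc : HasCompactSupport U) :
    ∃ L : ℝ≥0, ∀ p, ‖U p‖ ≤ L := by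
  obtain ⟨C, hC⟩ := hc.exists_bound_of_continuous hU.continuous
  refine ⟨⟨max C 0, le_max_right _ _⟩, fun p => ?_⟩
  exact (hC p).trans (le_max_left _ _)

/-- solution on `[-T, T]` -/
theorem exists_local (U : Field) (hU : ContDiff ℝ ∞ U) (hc : HasCompactSupport U)
    (x : Fin 3 → ℝ) (T : ℝ) (hT : 0 < T) :
    ∃ α : ℝ → (Fin 3 → ℝ), α 0 = x ∧ ∀ t ∈ Ioo (-T) T, HasDerivAt α (U (t, α t)) t := by
  obtain ⟨K, hK⟩ := exists_lipschitz U hU hc
  obtain ⟨L, hL⟩ := exists_bound U hU hc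
  have h0 : (0 : ℝ) ∈ Icc (-T) T := ⟨by linarith, hT.le⟩
  have hPL : IsPicardLindelof (fun t y => U (t, y)) (⟨0, h0⟩ : Icc (-T) T) x
      (L * ⟨T, hT.le⟩) 0 L K := by
    refine ⟨fun t _ => (hK t).lipschitzOnWith, fun y _ => ?_, fun t _ y _ => hL _, ?_⟩
    · exact (hU.continuous.comp (by fun_prop : Continuous fun t : ℝ => (t, y))).continuousOn
    · simp only [sub_zero, zero_sub, neg_neg, max_self, NNReal.coe_zero]
      exact le_of_eq rfl
  obtain ⟨α, hα0, hα⟩ := hPL.exists_eq_forall_mem_Icc_hasDerivWithinAt₀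
  refine ⟨α, hα0, fun t ht => ?_⟩
  exact (hα t (Ioo_subset_Icc_self ht)).hasDerivAt (Icc_mem_nhds ht.1 ht.2)

end T7

open Set in
theorem exists_isFlow (U : Field) (hU : ContDiff ℝ ∞ U) (hc : HasCompactSupport U) :
    ∃ Φ : ℝ → (Fin 3 → ℝ) → (Fin 3 → ℝ), IsFlow U Φ := by
  classical
  obtain ⟨K, hK⟩ := T7.exists_lipschitz U hU hc
  have hex : ∀ (x : Fin 3 → ℝ) (m : ℕ), ∃ α : ℝ → (Fin 3 → ℝ), α 0 = x ∧
      ∀ t ∈ Ioo (-((m : ℝ) + 1)) ((m : ℝ) + 1), HasDerivAt α (U (t, α t)) t := fun x m =>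
    T7.exists_local U hU hc x _ (by positivity)
  choose α hα0 hα using hex
  -- compatibility
  have hcompat : ∀ (x : Fin 3 → ℝ) (m m' : ℕ), m ≤ m' →
      EqOn (α x m) (α x m') (Ioo (-((m : ℝ) + 1)) ((m : ℝ) + 1)) := by
    intro x m m' hmm
    have hmm' : (m : ℝ) ≤ m' := by exact_mod_cast hmm
    refine ODE_solution_unique_of_mem_Ioo (v := fun t y => U (t, y)) (s := fun _ => univ) (K := K)
      (t₀ := 0) (fun t _ => (hK t).lipschitzOnWith) ⟨by linarith [(Nat.cast_nonneg m : (0:ℝ) ≤ m)],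
        by linarith [(Nat.cast_nonneg m : (0:ℝ) ≤ m)]⟩
      (fun t ht => ⟨hα x m t ht, trivial⟩)
      (fun t ht => ⟨hα x m' t ⟨by linarith [ht.1], by linarith [ht.2]⟩, trivial⟩) ?_
    rw [hα0, hα0]
  refine ⟨fun t x => α x ⌈|t|⌉₊ t, fun x => by simp [hα0], fun t x => ?_⟩
  set m := ⌈|t|⌉₊ with hm
  have htm : |t| ≤ m := Nat.le_ceil _
  have ht : t ∈ Ioo (-((m : ℝ) + 1)) ((m : ℝ) + 1) := by
    have := abs_le.mp htm
    exact ⟨by linarith [this.1], by linarith [this.2]⟩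
  have ht' : t ∈ Ioo (-(((m + 1 : ℕ) : ℝ) + 1)) (((m + 1 : ℕ) : ℝ) + 1) := by
    push_cast
    exact ⟨by linarith [ht.1], by linarith [ht.2]⟩
  -- near `t`, the glued curve is `α x (m+1)`
  have hev : (fun s => α x ⌈|s|⌉₊ s) =ᶠ[nhds t] α x (m + 1) := by
    filter_upwards [Ioo_mem_nhds ht.1 ht.2] with s hs
    have hs1 : |s| ≤ ((m + 1 : ℕ) : ℝ) := by
      push_cast
      exact abs_le.mpr ⟨by linarith [hs.1], by linarith [hs.2]⟩
    have hle : ⌈|s|⌉₊ ≤ m + 1 := Nat.ceil_le.mpr hs1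
    have hs2 : |s| ≤ (⌈|s|⌉₊ : ℝ) := Nat.le_ceil _
    have hs3 := abs_le.mp hs2
    exact hcompat x _ _ hle ⟨by linarith [hs3.1], by linarith [hs3.2]⟩
  have hval : α x m t = α x (m + 1) t := hcompat x m (m + 1) (Nat.le_succ m) ht
  have := (hα x (m + 1) t ht').congr_of_eventuallyEq hev
  rw [← hval] at this
  exact this

theorem isFlow_unique (U : Field) (hU : ContDiff ℝ ∞ U) (hc : HasCompactSupport U)
    (Φ : ℝ → (Fin 3 → ℝ) → (Fin 3 → ℝ)) (hΦ : IsFlow U Φ) (x : Fin 3 → ℝ)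
    (γ : ℝ → (Fin 3 → ℝ)) (h0 : γ 0 = x) (hγ : ∀ t, HasDerivAt γ (U (t, γ t)) t) (t : ℝ) :
    Φ t x = γ t := by
  obtain ⟨K, hK⟩ := T7.exists_lipschitz U hU hc
  have := ODE_solution_unique_univ (v := fun t y => U (t, y)) (s := fun _ => Set.univ) (K := K)
    (f := fun s => Φ s x) (g := γ) (t₀ := 0) (fun t => (hK t).lipschitzOnWith)
    (fun t => ⟨hΦ.2 t x, trivial⟩) (fun t => ⟨hγ t, trivial⟩) (by simp [hΦ.1 x, h0])
  exact congrFun this t

end Crest.Agent.S0170Aux
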