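import Mathlib
import Crest.Agent.S0170Aux.Defs

/-! # S0170 auxiliary T9: combinatorial planning (pure ℚ combinatorics, no analysis)

Every pairwise separated configuration can be brought to the standard configuration by legal moves.
Suggested proof. `key i = c i 0 + w i 0`, `σ = Tuple.sort key` (so `key ∘ σ` is monotone), `ρ = σ.symm`.
A. For `m = n, n-1, …, 0` move box `σ m` along axis 0 by `+ m Λ` (`Λ > 2 max w`): unmoved boxes that are
   not separated in axes 1,2 lie entirely to the left (their key is smaller), moved ones are further right.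
   Afterwards all pairs are separated in axis 0.
B. Lemma: if all pairs are separated in axis `j0` in `c` and `c'` agrees with `c` in coordinate `j0`, then
   `c` and `c'` are connected (change one `(i,j)` at a time). Use it: axis-1 coordinates := `i L`; then
   (all pairs separated in axis 1) axis-0 coordinates := `i L`; then axes 1, 2 := 0. -/

set_option autoImplicit false

namespace Crest.Agent.S0170Aux

theorem Step.symm {n : ℕ} {w c c' : Fin n → Fin 3 → ℚ} (h : Step w c c') : Step w c' c := by
  obtain ⟨i, j, v, rfl, h⟩ := h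
  refine ⟨i, j, c i j, ?_, ?_⟩
  · funext a
    by_cases ha : a = i
    · subst ha
      funext b
      by_cases hb : b = j
      · subst hb; simp
      · simp [Function.update_of_ne hb]
    · simp [Function.update_of_ne ha]
  · intro i' hi'
    rcases h i' hi' with ⟨j', hj', hs⟩ | hs | hs
    · left
      refine ⟨j', hj', ?_⟩
      unfold SepAt at hs ⊢
      simpa [Function.update_of_ne hi', Function.update_of_ne hj'] using hs
    · right; left
      simpa [Function.update_of_ne hi', min_comm] using hs
    · right; right
      simpa [Function.update_of_ne hi', max_comm] using hs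

theorem connected_symm {n : ℕ} {w c c' : Fin n → Fin 3 → ℚ}
    (h : Relation.ReflTransGen (Step w) c c') : Relation.ReflTransGen (Step w) c' c := by
  induction h with
  | refl => exact Relation.ReflTransGen.refl
  | tail _ hs ih => exact Relation.ReflTransGen.head (Step.symm hs) ih

namespace T9

variable {n : ℕ}

/-- mixture of two configurations along a set of positions -/
def mix (c c' : Fin n → Fin 3 → ℚ) (S : Finset (Fin n × Fin 3)) : Fin n → Fin 3 → ℚ :=
  fun i j => if (i, j) ∈ S then c' i j else c i j

/-- Lemma B: if all pairs are separated in axis `j0`, all other coordinates may be changed freely. -/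
theorem connected_of_sepAxis (w c c' : Fin n → Fin 3 → ℚ) (j0 : Fin 3)
    (hsep : ∀ i i', i ≠ i' → SepAt w c i i' j0) (hagree : ∀ i, c' i j0 = c i j0) :
    Relation.ReflTransGen (Step w) c c' := by
  have key : ∀ S : Finset (Fin n × Fin 3), Relation.ReflTransGen (Step w) c (mix c c' S) := by
    intro S
    induction S using Finset.induction_on with
    | empty =>
      have : mix c c' ∅ = c := by funext i j; simp [mix]
      rw [this]
    | insert a S ha ih =>
      obtain ⟨i, j⟩ := a
      by_cases hj : j = j0
      · have : mix c c' (insert (i, j) S) = mix c c' S := by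
          funext a b
          by_cases hab : (a, b) = (i, j)
          · obtain ⟨rfl, rfl⟩ := Prod.mk.inj hab
            simp [mix, ha, hj, hagree]
          · simp [mix, Finset.mem_insert, hab]
        rw [this]; exact ih
      · refine ih.tail ⟨i, j, c' i j, ?_, ?_⟩
        · funext a b
          by_cases haa : a = i
          · subst haa
            by_cases hb : b = j
            · subst hb; simp [mix]
            · have : (a, b) ≠ (a, j) := fun h => hb (Prod.mk.inj h).2
              simp [mix, Finset.mem_insert, this, Function.update_of_ne hb]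
          · have : (a, b) ≠ (i, j) := fun h => haa (Prod.mk.inj h).1
            simp [mix, Finset.mem_insert, this, Function.update_of_ne haa]
        · intro i' hi'
          left
          refine ⟨j0, fun h => hj h.symm, ?_⟩
          have h1 : ∀ a, mix c c' S a j0 = c a j0 := by
            intro a; unfold mix; split_ifs
            · exact hagree a
            · rfl
          have := hsep i i' (fun h => hi' h.symm)
          unfold SepAt at this ⊢
          rw [h1, h1]; exact this
  have : mix c c' Finset.univ = c' := by funext i j; simp [mix]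
  rw [← this]; exact key _

/-- total width -/
def totW (w : Fin n → Fin 3 → ℚ) : ℚ := ∑ i, ∑ j, w i j

theorem le_totW (w : Fin n → Fin 3 → ℚ) (hw : ∀ i j, 0 < w i j) (i : Fin n) (j : Fin 3) :
    w i j ≤ totW w := by
  unfold totW
  calc w i j ≤ ∑ j, w i j :=
        Finset.single_le_sum (f := fun j => w i j) (fun j _ => (hw i j).le) (Finset.mem_univ j)
    _ ≤ ∑ i, ∑ j, w i j :=
        Finset.single_le_sum (f := fun i => ∑ j, w i j)
          (fun i _ => Finset.sum_nonneg fun j _ => (hw i j).le) (Finset.mem_univ i)

/-- configuration after the boxes of rank `≥ k` have been pushed to the right -/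
def pushed (c : Fin n → Fin 3 → ℚ) (ρ : Fin n → ℕ) (Λ : ℚ) (k : ℕ) : Fin n → Fin 3 → ℚ :=
  fun i j => if j = 0 ∧ k ≤ ρ i then c i 0 + (ρ i : ℚ) * Λ else c i j

/-- Phase A, one step -/
theorem pushed_step (w c : Fin n → Fin 3 → ℚ) (hw : ∀ i j, 0 < w i j) (hc : PSep w c)
    (ρ : Fin n → ℕ) (hρ : Function.Injective ρ)
    (hmono : ∀ i i', ρ i < ρ i' → c i 0 + w i 0 ≤ c i' 0 + w i' 0)
    (Λ : ℚ) (hΛ : 2 * totW w < Λ) (k : ℕ) :
    Relation.ReflTransGen (Step w) (pushed c ρ Λ (k + 1)) (pushed c ρ Λ k) := by
  have hW0 : 0 ≤ totW w := Finset.sum_nonneg fun i _ => Finset.sum_nonneg fun j _ => (hw i j).le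
  have hΛ0 : 0 < Λ := by linarith
  by_cases hk : ∃ i, ρ i = k
  · obtain ⟨i, hi⟩ := hk
    refine Relation.ReflTransGen.single ⟨i, 0, c i 0 + (k : ℚ) * Λ, ?_, ?_⟩
    · funext a b
      by_cases ha : a = i
      · subst ha
        by_cases hb : b = 0
        · subst hb; simp [pushed, hi]
        · simp [pushed, hb, Function.update_of_ne hb]
      · have hne : ρ a ≠ k := fun h => ha (hρ (h.trans hi.symm))
        have : (k ≤ ρ a) ↔ (k + 1 ≤ ρ a) := by omega
        simp [pushed, Function.update_of_ne ha, this]
    · intro i' hi'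
      have hcur : pushed c ρ Λ (k + 1) i 0 = c i 0 := by simp [pushed, hi]
      have hkΛ : 0 ≤ (k : ℚ) * Λ := by positivity
      have hne : ρ i' ≠ k := fun h => hi' (hρ (h.trans hi.symm))
      rcases lt_or_gt_of_ne hne with hlt | hgt
      · -- unmoved box of smaller rank
        have hcur' : ∀ b, pushed c ρ Λ (k + 1) i' b = c i' b := by
          intro b
          have : ¬ (k + 1 ≤ ρ i') := by omega
          simp [pushed, this]
        have hcuri : ∀ b, b ≠ 0 → pushed c ρ Λ (k + 1) i b = c i b := by
          intro b hb; simp [pushed, hb]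
        obtain ⟨j, hj⟩ := hc i i' (fun h => hi' h.symm)
        by_cases hj0 : j = 0
        · subst hj0
          right; left
          rw [hcur, hcur' 0, min_eq_left (by linarith)]
          have hkey := hmono i' i (by omega)
          unfold SepAt at hj
          have hwi' := hw i' 0
          rcases le_or_gt (c i' 0) (c i 0) with h | h
          · rw [abs_of_nonneg (by linarith)] at hj; linarith
          · rw [abs_of_neg (by linarith)] at hj; linarith
        · left
          refine ⟨j, hj0, ?_⟩
          unfold SepAt at hj ⊢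
          rw [hcuri j hj0, hcur' j]; exact hj
      · -- already moved box of larger rank
        right; right
        have hcur' : pushed c ρ Λ (k + 1) i' 0 = c i' 0 + (ρ i' : ℚ) * Λ := by
          have : k + 1 ≤ ρ i' := by omega
          simp [pushed, this]
        rw [hcur, hcur', max_eq_right (by linarith)]
        have hkey := hmono i i' (by omega)
        have h1 : (k : ℚ) + 1 ≤ (ρ i' : ℚ) := by exact_mod_cast hgt
        have h2 : w i' 0 ≤ totW w := le_totW w hw i' 0
        nlinarith
  · have : pushed c ρ Λ (k + 1) = pushed c ρ Λ k := by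
      funext a b
      have hne : ρ a ≠ k := fun h => hk ⟨a, h⟩
      have : (k ≤ ρ a) ↔ (k + 1 ≤ ρ a) := by omega
      simp [pushed, this]
    rw [this]

theorem pushed_connected (w c : Fin n → Fin 3 → ℚ) (hw : ∀ i j, 0 < w i j) (hc : PSep w c)
    (ρ : Fin n → ℕ) (hρ : Function.Injective ρ)
    (hmono : ∀ i i', ρ i < ρ i' → c i 0 + w i 0 ≤ c i' 0 + w i' 0)
    (Λ : ℚ) (hΛ : 2 * totW w < Λ) (m k : ℕ) :
    Relation.ReflTransGen (Step w) (pushed c ρ Λ (k + m)) (pushed c ρ Λ k) := by
  induction m with
  | zero => exact Relation.ReflTransGen.refl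
  | succ m ih => exact (pushed_step w c hw hc ρ hρ hmono Λ hΛ (k + m)).trans ih

theorem sepAt_of_mul (w c : Fin n → Fin 3 → ℚ) (hw : ∀ i j, 0 < w i j) (L : ℚ)
    (hL : 2 * totW w < L) (j : Fin 3) (hcj : ∀ i : Fin n, c i j = (i : ℚ) * L)
    (i i' : Fin n) (hne : i ≠ i') : SepAt w c i i' j := by
  unfold SepAt
  rw [hcj, hcj, ← sub_mul, abs_mul]
  have hW0 : 0 ≤ totW w := Finset.sum_nonneg fun i _ => Finset.sum_nonneg fun j _ => (hw i j).le
  have hL0 : 0 < L := by linarith
  rw [abs_of_pos hL0]
  have h1 : (1 : ℚ) ≤ |((i : ℕ) : ℚ) - ((i' : ℕ) : ℚ)| := by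
    have hne' : ((i : ℕ) : ℤ) - ((i' : ℕ) : ℤ) ≠ 0 := by
      intro h
      apply hne
      apply Fin.ext
      omega
    have := Int.one_le_abs hne'
    have h2 : ((|((i : ℕ) : ℤ) - ((i' : ℕ) : ℤ)| : ℤ) : ℚ) = |((i : ℕ) : ℚ) - ((i' : ℕ) : ℚ)| := by
      push_cast; rfl
    rw [← h2]
    exact_mod_cast this
  have h2 := le_totW w hw i j
  have h3 := le_totW w hw i' j
  nlinarith

end T9

open T9 in
theorem connected_std {n : ℕ} (w c : Fin n → Fin 3 → ℚ) (hw : ∀ i j, 0 < w i j)
    (hc : PSep w c) :
    ∃ L0 : ℚ, ∀ L : ℚ, L0 ≤ L → Relation.ReflTransGen (Step w) c (stdCfg n L) := by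
  refine ⟨2 * totW w + 1, fun L hL => ?_⟩
  have hL' : 2 * totW w < L := by linarith
  -- ranks
  set key : Fin n → ℚ := fun i => c i 0 + w i 0 with hkey
  set σ := Tuple.sort key with hσ
  have hσmono : Monotone (key ∘ σ) := Tuple.monotone_sort key
  set ρ : Fin n → ℕ := fun i => (σ.symm i : ℕ) with hρdef
  have hρ : Function.Injective ρ := by
    intro a b hab
    exact σ.symm.injective (Fin.ext hab)
  have hmono : ∀ i i', ρ i < ρ i' → c i 0 + w i 0 ≤ c i' 0 + w i' 0 := by
    intro i i' h
    have := hσmono (show σ.symm i ≤ σ.symm i' from le_of_lt h)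
    simpa [hkey] using this
  -- phase A
  have hA : Relation.ReflTransGen (Step w) c (pushed c ρ L 0) := by
    have h := pushed_connected w c hw hc ρ hρ hmono L hL' n 0
    have h0 : pushed c ρ L (0 + n) = c := by
      funext a b
      have : ¬ (n ≤ ρ a) := by
        have := (σ.symm a).isLt
        simp only [hρdef]; omega
      simp [pushed, this]
    rwa [h0] at h
  set c1 := pushed c ρ L 0 with hc1
  have hW0 : 0 ≤ totW w := Finset.sum_nonneg fun i _ => Finset.sum_nonneg fun j _ => (hw i j).le
  have hsep1 : ∀ i i', i ≠ i' → SepAt w c1 i i' 0 := by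
    have aux : ∀ i i', ρ i < ρ i' → SepAt w c1 i i' 0 ∧ SepAt w c1 i' i 0 := by
      intro i i' h
      have hk := hmono i i' h
      have h1 : (ρ i : ℚ) + 1 ≤ (ρ i' : ℚ) := by exact_mod_cast h
      have h2 : w i' 0 ≤ totW w := le_totW w hw i' 0
      have e1 : c1 i 0 = c i 0 + (ρ i : ℚ) * L := by simp [hc1, pushed]
      have e2 : c1 i' 0 = c i' 0 + (ρ i' : ℚ) * L := by simp [hc1, pushed]
      have hlt : c1 i 0 + w i 0 < c1 i' 0 - w i' 0 := by rw [e1, e2]; nlinarith
      constructor
      · unfold SepAt; rw [abs_of_neg (by have := hw i 0; have := hw i' 0; linarith)]; linarith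
      · unfold SepAt; rw [abs_of_pos (by have := hw i 0; have := hw i' 0; linarith)]; linarith
    intro i i' hne
    rcases lt_or_gt_of_ne (fun h => hne (hρ h)) with h | h
    · exact (aux i i' h).1
    · exact (aux i' i h).2
  -- phase B
  set c2 : Fin n → Fin 3 → ℚ := fun i j => if j = 0 then c1 i 0 else if j = 1 then (i : ℚ) * L else 0
    with hc2
  set c3 : Fin n → Fin 3 → ℚ := fun i j => if j = 0 then (i : ℚ) * L else if j = 1 then (i : ℚ) * L else 0
    with hc3
  have h12 : Relation.ReflTransGen (Step w) c1 c2 :=
    connected_of_sepAxis w c1 c2 0 hsep1 (fun i => by simp [hc2])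
  have h23 : Relation.ReflTransGen (Step w) c2 c3 :=
    connected_of_sepAxis w c2 c3 1
      (fun i i' hne => sepAt_of_mul w c2 hw L hL' 1 (fun i => by simp [hc2]) i i' hne)
      (fun i => by simp [hc2, hc3])
  have h34 : Relation.ReflTransGen (Step w) c3 (stdCfg n L) :=
    connected_of_sepAxis w c3 (stdCfg n L) 0
      (fun i i' hne => sepAt_of_mul w c3 hw L hL' 0 (fun i => by simp [hc3]) i i' hne)
      (fun i => by simp [hc3, stdCfg])
  exact hA.trans (h12.trans (h23.trans h34))

end Crest.Agent.S0170Aux
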