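import Mathlib
import Crest.Agent.S0170Aux.Defs
import Crest.Agent.S0170Aux.RatComp

/-! # S0170 auxiliary T5: closure properties of one-dimensional effective families -/

set_option autoImplicit false
open scoped ContDiff

namespace Crest.Agent.S0170Aux

namespace T5

/-- projections on the index type of approximators -/
theorem pk : Computable (fun a : ℕ × ℚ × ℕ => a.1) := Computable.fst
theorem pq : Computable (fun a : ℕ × ℚ × ℕ => a.2.1) := Computable.fst.comp Computable.snd
theorem pn : Computable (fun a : ℕ × ℚ × ℕ => a.2.2) := Computable.snd.comp Computable.snd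

theorem cadd {α : Type*} [Primcodable α] {f g : α → ℕ} (hf : Computable f) (hg : Computable g) :
    Computable (fun a => f a + g a) := Primrec.nat_add.to_comp.comp hf hg

theorem cmul {α : Type*} [Primcodable α] {f g : α → ℕ} (hf : Computable f) (hg : Computable g) :
    Computable (fun a => f a * g a) := Primrec.nat_mul.to_comp.comp hf hg

theorem csub {α : Type*} [Primcodable α] {f g : α → ℕ} (hf : Computable f) (hg : Computable g) :
    Computable (fun a => f a - g a) := Primrec.nat_sub.to_comp.comp hf hg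

theorem cpow {α : Type*} [Primcodable α] {f g : α → ℕ} (hf : Computable f) (hg : Computable g) :
    Computable (fun a => f a ^ g a) := nat_pow'.comp hf hg

theorem qadd {α : Type*} [Primcodable α] {f g : α → ℚ} (hf : Computable f) (hg : Computable g) :
    Computable (fun a => f a + g a) := rat_add.comp hf hg

theorem qsub {α : Type*} [Primcodable α] {f g : α → ℚ} (hf : Computable f) (hg : Computable g) :
    Computable (fun a => f a - g a) := rat_sub.comp hf hg

theorem qmul {α : Type*} [Primcodable α] {f g : α → ℚ} (hf : Computable f) (hg : Computable g) :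
    Computable (fun a => f a * g a) := rat_mul.comp hf hg

theorem qpow {α : Type*} [Primcodable α] {f : α → ℚ} {g : α → ℕ} (hf : Computable f)
    (hg : Computable g) : Computable (fun a => f a ^ g a) := rat_pow.comp hf hg

theorem qcast {α : Type*} [Primcodable α] {f : α → ℕ} (hf : Computable f) :
    Computable (fun a => (f a : ℚ)) := rat_natCast.comp hf

/-- a natural number bounding `|c|` from above, at least one -/
def ub (c : ℚ) : ℕ := c.num.natAbs + 1

theorem abs_le_natAbs (c : ℚ) : |(c : ℝ)| ≤ (c.num.natAbs : ℝ) := by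
  have h1 : |c| ≤ (c.num.natAbs : ℚ) := by
    have hden : (1 : ℚ) ≤ (c.den : ℚ) := by exact_mod_cast c.den_pos
    have hnum : |(c.num : ℚ)| = (c.num.natAbs : ℚ) := by
      rw [Nat.cast_natAbs]; push_cast; rfl
    have : |c| = |(c.num : ℚ)| / (c.den : ℚ) := by
      conv_lhs => rw [← Rat.num_div_den c]
      rw [abs_div, abs_of_pos (by linarith : (0 : ℚ) < c.den)]
    rw [this, hnum]
    exact div_le_self (by positivity) hden
  have h2 : ((|c| : ℚ) : ℝ) ≤ ((c.num.natAbs : ℚ) : ℝ) := by exact_mod_cast h1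
  simpa using h2

theorem abs_le_ub (c : ℚ) : |(c : ℝ)| ≤ (ub c : ℝ) := by
  have := abs_le_natAbs c
  unfold ub
  push_cast
  linarith

theorem one_le_ub (c : ℚ) : (1 : ℝ) ≤ (ub c : ℝ) := by
  unfold ub
  push_cast
  have : (0 : ℝ) ≤ (c.num.natAbs : ℝ) := by positivity
  linarith

/-- basic scaling estimate: `M * (1/(M' + 1)) ≤ 1/(n+1)` when `M * (n+1) ≤ M'`. -/
theorem scale_le {M : ℝ} {M' n : ℕ} (_hM : 0 ≤ M) (h : M * ((n : ℝ) + 1) ≤ (M' : ℝ)) :
    M * (1 / ((M' : ℝ) + 1)) ≤ 1 / ((n : ℝ) + 1) := by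
  have hn : (0 : ℝ) < (n : ℝ) + 1 := by positivity
  have hM' : (0 : ℝ) < (M' : ℝ) + 1 := by positivity
  rw [mul_one_div, div_le_div_iff₀ hM' hn]
  nlinarith

end T5

open T5

theorem Eff1.contDiff {f : ℕ → ℝ → ℝ} (hf : Eff1 f) (k : ℕ) : ContDiff ℝ ∞ (f k) := by
  have hderiv : ∀ k, deriv (f k) = f (k + 1) := fun k => funext fun x => (hf.hasDeriv k x).deriv
  have hdiff : ∀ k, Differentiable ℝ (f k) := fun k x => (hf.hasDeriv k x).differentiableAt
  have key : ∀ n : ℕ, ∀ k, ContDiff ℝ n (f k) := by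
    intro n
    induction n with
    | zero =>
      intro k
      exact contDiff_zero.2 (hdiff k).continuous
    | succ n ih =>
      intro k
      have : ContDiff ℝ ((n : ℕ∞ω) + 1) (f k) := by
        rw [contDiff_succ_iff_deriv]
        refine ⟨hdiff k, by simp, ?_⟩
        rw [hderiv]
        exact ih (k + 1)
      exact_mod_cast this
  exact contDiff_infty.2 fun n => key n k

theorem Eff1.comp_affine {f : ℕ → ℝ → ℝ} (hf : Eff1 f) (α β : ℚ) :
    Eff1 (fun k x => (α : ℝ) ^ k * f k ((α : ℝ) * x + (β : ℝ))) := by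
  obtain ⟨A, hA, hAe⟩ := hf.approx
  obtain ⟨B, hB, hBe⟩ := hf.bound
  refine ⟨?_, ?_, ?_⟩
  · intro k x
    have h1 : HasDerivAt (fun x : ℝ => (α : ℝ) * x + (β : ℝ)) (α : ℝ) x := by
      simpa using ((hasDerivAt_id x).const_mul (α : ℝ)).add_const (β : ℝ)
    have h2 : HasDerivAt (fun x : ℝ => f k ((α : ℝ) * x + (β : ℝ)))
        (f (k + 1) ((α : ℝ) * x + (β : ℝ)) * (α : ℝ)) x :=
      (hf.hasDeriv k ((α : ℝ) * x + (β : ℝ))).comp x h1
    have h3 := h2.const_mul ((α : ℝ) ^ k)
    exact h3.congr_deriv (by ring)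
  · refine ⟨fun a => α ^ a.1 * A (a.1, α * a.2.1 + β, ub α ^ a.1 * (a.2.2 + 1)), ?_, ?_⟩
    · refine qmul (qpow (Computable.const α) pk) (hA.comp ?_)
      refine Computable.pair pk (Computable.pair ?_ ?_)
      · exact qadd (qmul (Computable.const α) pq) (Computable.const β)
      · exact cmul (cpow (Computable.const (ub α)) pk) (cadd pn (Computable.const 1))
    · intro k q n
      have h := hAe k (α * q + β) (ub α ^ k * (n + 1))
      push_cast at h ⊢
      rw [← mul_sub, abs_mul, abs_pow]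
      have hpow : |(α : ℝ)| ^ k ≤ (ub α : ℝ) ^ k := pow_le_pow_left₀ (abs_nonneg _) (abs_le_ub α) k
      calc |(α : ℝ)| ^ k * |f k ((α : ℝ) * q + β) - (A (k, α * q + β, ub α ^ k * (n + 1)) : ℝ)|
          ≤ (ub α : ℝ) ^ k * (1 / ((ub α : ℝ) ^ k * ((n : ℝ) + 1) + 1)) :=
            mul_le_mul hpow h (abs_nonneg _) (by positivity)
        _ ≤ 1 / ((n : ℝ) + 1) := by
            have := scale_le (M := (ub α : ℝ) ^ k) (M' := ub α ^ k * (n + 1)) (n := n)
              (by positivity) (by push_cast; exact le_rfl)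
            push_cast at this
            exact this
  · refine ⟨fun k => ub α ^ k * B k, cmul (cpow (Computable.const (ub α)) Computable.id) hB, ?_⟩
    intro k x
    push_cast
    rw [abs_mul, abs_pow]
    exact mul_le_mul (pow_le_pow_left₀ (abs_nonneg _) (abs_le_ub α) k) (hBe k _) (abs_nonneg _)
      (by positivity)

theorem Eff1.add {f g : ℕ → ℝ → ℝ} (hf : Eff1 f) (hg : Eff1 g) :
    Eff1 (fun k x => f k x + g k x) := by
  obtain ⟨A, hA, hAe⟩ := hf.approx
  obtain ⟨B, hB, hBe⟩ := hf.bound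
  obtain ⟨A', hA', hAe'⟩ := hg.approx
  obtain ⟨B', hB', hBe'⟩ := hg.bound
  have hidx : Computable (fun a : ℕ × ℚ × ℕ => (a.1, a.2.1, 2 * a.2.2 + 1)) :=
    Computable.pair pk (Computable.pair pq
      (cadd (cmul (Computable.const 2) pn) (Computable.const 1)))
  refine ⟨fun k x => (hf.hasDeriv k x).add (hg.hasDeriv k x), ?_, ?_⟩
  · refine ⟨fun a => A (a.1, a.2.1, 2 * a.2.2 + 1) + A' (a.1, a.2.1, 2 * a.2.2 + 1),
      qadd (hA.comp hidx) (hA'.comp hidx), ?_⟩
    intro k q n
    have h1 := hAe k q (2 * n + 1)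
    have h2 := hAe' k q (2 * n + 1)
    push_cast at h1 h2 ⊢
    have hn : (0 : ℝ) < (n : ℝ) + 1 := by positivity
    have e : 1 / (2 * (n : ℝ) + 1 + 1) + 1 / (2 * (n : ℝ) + 1 + 1) = 1 / ((n : ℝ) + 1) := by
      field_simp
      ring
    calc |f k q + g k q - ((A (k, q, 2 * n + 1) : ℝ) + (A' (k, q, 2 * n + 1) : ℝ))|
        = |(f k q - (A (k, q, 2 * n + 1) : ℝ)) + (g k q - (A' (k, q, 2 * n + 1) : ℝ))| := by
          congr 1; ring
      _ ≤ _ := abs_add_le _ _
      _ ≤ 1 / (2 * (n : ℝ) + 1 + 1) + 1 / (2 * (n : ℝ) + 1 + 1) := add_le_add h1 h2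
      _ = _ := e
  · refine ⟨fun k => B k + B' k, cadd hB hB', ?_⟩
    intro k x
    push_cast
    exact (abs_add_le _ _).trans (add_le_add (hBe k x) (hBe' k x))

theorem Eff1.const_mul {f : ℕ → ℝ → ℝ} (hf : Eff1 f) (c : ℚ) :
    Eff1 (fun k x => (c : ℝ) * f k x) := by
  obtain ⟨A, hA, hAe⟩ := hf.approx
  obtain ⟨B, hB, hBe⟩ := hf.bound
  refine ⟨fun k x => (hf.hasDeriv k x).const_mul _, ?_, ?_⟩
  · refine ⟨fun a => c * A (a.1, a.2.1, ub c * (a.2.2 + 1)), ?_, ?_⟩
    · refine qmul (Computable.const c) (hA.comp ?_)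
      exact Computable.pair pk (Computable.pair pq
        (cmul (Computable.const (ub c)) (cadd pn (Computable.const 1))))
    · intro k q n
      have h := hAe k q (ub c * (n + 1))
      push_cast at h ⊢
      rw [← mul_sub, abs_mul]
      calc |(c : ℝ)| * |f k q - (A (k, q, ub c * (n + 1)) : ℝ)|
          ≤ (ub c : ℝ) * (1 / ((ub c : ℝ) * ((n : ℝ) + 1) + 1)) :=
            mul_le_mul (abs_le_ub c) h (abs_nonneg _) (by positivity)
        _ ≤ 1 / ((n : ℝ) + 1) := by
            have := scale_le (M := (ub c : ℝ)) (M' := ub c * (n + 1)) (n := n)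
              (by positivity) (by push_cast; exact le_rfl)
            push_cast at this
            exact this
  · refine ⟨fun k => ub c * B k, cmul (Computable.const (ub c)) hB, ?_⟩
    intro k x
    push_cast
    rw [abs_mul]
    exact mul_le_mul (abs_le_ub c) (hBe k x) (abs_nonneg _) (by positivity)

theorem Eff1.sub {f g : ℕ → ℝ → ℝ} (hf : Eff1 f) (hg : Eff1 g) :
    Eff1 (fun k x => f k x - g k x) := by
  have h := hf.add (hg.const_mul (-1))
  have e : (fun k x => f k x + ((-1 : ℚ) : ℝ) * g k x) = (fun k x => f k x - g k x) := by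
    funext k x
    push_cast
    ring
  rwa [e] at h

theorem Eff1.shift {f : ℕ → ℝ → ℝ} (hf : Eff1 f) : Eff1 (fun k => f (k + 1)) := by
  obtain ⟨A, hA, hAe⟩ := hf.approx
  obtain ⟨B, hB, hBe⟩ := hf.bound
  refine ⟨fun k x => hf.hasDeriv (k + 1) x, ?_, ?_⟩
  · refine ⟨fun a => A (a.1 + 1, a.2.1, a.2.2), hA.comp ?_, fun k q n => hAe (k + 1) q n⟩
    exact Computable.pair (cadd pk (Computable.const 1)) (Computable.pair pq pn)
  · exact ⟨fun k => B (k + 1), hB.comp (cadd Computable.id (Computable.const 1)),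
      fun k x => hBe (k + 1) x⟩

/-- multiplication by `x - c` of a family supported in `[-R, R]` -/
theorem Eff1.mul_lin {f : ℕ → ℝ → ℝ} (hf : Eff1 f) (c : ℚ) (R : ℕ)
    (hsupp : ∀ k x, (R : ℝ) < |x| → f k x = 0) :
    Eff1 (fun k x => (x - (c : ℝ)) * f k x + (k : ℝ) * f (k - 1) x) := by
  obtain ⟨A, hA, hAe⟩ := hf.approx
  obtain ⟨B, hB, hBe⟩ := hf.bound
  refine ⟨?_, ?_, ?_⟩
  · intro k x
    have h1 : HasDerivAt (fun x : ℝ => x - (c : ℝ)) 1 x := (hasDerivAt_id x).sub_const _
    have h2 : HasDerivAt (fun x : ℝ => (x - (c : ℝ)) * f k x)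
        (1 * f k x + (x - (c : ℝ)) * f (k + 1) x) x := h1.mul (hf.hasDeriv k x)
    cases k with
    | zero =>
      have h3 : HasDerivAt (fun x : ℝ => ((0 : ℕ) : ℝ) * f (0 - 1) x) 0 x := by
        simpa using hasDerivAt_const x (0 : ℝ)
      refine (h2.add h3).congr_deriv ?_
      simp
      ring
    | succ k =>
      have h3 : HasDerivAt (fun x : ℝ => ((k + 1 : ℕ) : ℝ) * f (k + 1 - 1) x)
          (((k + 1 : ℕ) : ℝ) * f (k + 1) x) x :=
        (hf.hasDeriv k x).const_mul (((k + 1 : ℕ) : ℝ))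
      refine (h2.add h3).congr_deriv ?_
      simp only [Nat.add_sub_cancel]
      push_cast
      ring
  · refine ⟨fun a => (a.2.1 - c) * A (a.1, a.2.1, 2 * ((a.2.1 - c).num.natAbs + 1) * (a.2.2 + 1))
      + (a.1 : ℚ) * A (a.1 - 1, a.2.1, 2 * a.1 * (a.2.2 + 1)), ?_, ?_⟩
    · have hqc : Computable (fun a : ℕ × ℚ × ℕ => a.2.1 - c) := qsub pq (Computable.const c)
      refine qadd (qmul hqc (hA.comp ?_)) (qmul (qcast pk) (hA.comp ?_))
      · refine Computable.pair pk (Computable.pair pq ?_)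
        exact cmul (cmul (Computable.const 2)
          (cadd (rat_natAbs_num.comp hqc) (Computable.const 1))) (cadd pn (Computable.const 1))
      · refine Computable.pair (csub pk (Computable.const 1)) (Computable.pair pq ?_)
        exact cmul (cmul (Computable.const 2) pk) (cadd pn (Computable.const 1))
    · intro k q n
      set n1 : ℕ := 2 * ((q - c).num.natAbs + 1) * (n + 1) with hn1
      set n2 : ℕ := 2 * k * (n + 1) with hn2
      have h1 := hAe k q n1
      have h2 := hAe (k - 1) q n2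
      have hn : (0 : ℝ) < (n : ℝ) + 1 := by positivity
      have hqc : |(q : ℝ) - (c : ℝ)| ≤ ((q - c).num.natAbs : ℝ) + 1 := by
        have := abs_le_natAbs (q - c)
        push_cast at this
        linarith
      have b1 : |(q : ℝ) - (c : ℝ)| * |f k q - (A (k, q, n1) : ℝ)| ≤ 1 / (2 * ((n : ℝ) + 1)) := by
        have hs := scale_le (M := 2 * (((q - c).num.natAbs : ℝ) + 1)) (M' := n1) (n := n)
          (by positivity) (by rw [hn1]; push_cast; exact le_rfl)
        have : (((q - c).num.natAbs : ℝ) + 1) * (1 / ((n1 : ℝ) + 1)) ≤ 1 / (2 * ((n : ℝ) + 1)) := by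
          have e : 1 / (2 * ((n : ℝ) + 1)) = (1 / ((n : ℝ) + 1)) / 2 := by field_simp
          rw [e]
          linarith
        exact (mul_le_mul hqc h1 (abs_nonneg _) (by positivity)).trans this
      have b2 : (k : ℝ) * |f (k - 1) q - (A (k - 1, q, n2) : ℝ)| ≤ 1 / (2 * ((n : ℝ) + 1)) := by
        have hs := scale_le (M := 2 * (k : ℝ)) (M' := n2) (n := n)
          (by positivity) (by rw [hn2]; push_cast; exact le_rfl)
        have : (k : ℝ) * (1 / ((n2 : ℝ) + 1)) ≤ 1 / (2 * ((n : ℝ) + 1)) := by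
          have e : 1 / (2 * ((n : ℝ) + 1)) = (1 / ((n : ℝ) + 1)) / 2 := by field_simp
          rw [e]
          linarith
        exact (mul_le_mul_of_nonneg_left h2 (by positivity)).trans this
      have e : 1 / (2 * ((n : ℝ) + 1)) + 1 / (2 * ((n : ℝ) + 1)) = 1 / ((n : ℝ) + 1) := by
        field_simp
        ring
      push_cast
      calc |((q : ℝ) - c) * f k q + (k : ℝ) * f (k - 1) q
            - (((q : ℝ) - c) * (A (k, q, n1) : ℝ) + (k : ℝ) * (A (k - 1, q, n2) : ℝ))|
          = |((q : ℝ) - c) * (f k q - (A (k, q, n1) : ℝ))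
              + (k : ℝ) * (f (k - 1) q - (A (k - 1, q, n2) : ℝ))| := by congr 1; ring
        _ ≤ |((q : ℝ) - c) * (f k q - (A (k, q, n1) : ℝ))|
              + |(k : ℝ) * (f (k - 1) q - (A (k - 1, q, n2) : ℝ))| := abs_add_le _ _
        _ = |(q : ℝ) - c| * |f k q - (A (k, q, n1) : ℝ)|
              + (k : ℝ) * |f (k - 1) q - (A (k - 1, q, n2) : ℝ)| := by
            rw [abs_mul, abs_mul, abs_of_nonneg (by positivity : (0 : ℝ) ≤ (k : ℝ))]
        _ ≤ 1 / (2 * ((n : ℝ) + 1)) + 1 / (2 * ((n : ℝ) + 1)) := add_le_add b1 b2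
        _ = _ := e
  · refine ⟨fun k => (R + ub c) * B k + k * B (k - 1), ?_, ?_⟩
    · exact cadd (cmul (Computable.const (R + ub c)) hB)
        (cmul Computable.id (hB.comp (csub Computable.id (Computable.const 1))))
    · intro k x
      push_cast
      by_cases hx : (R : ℝ) < |x|
      · rw [hsupp k x hx, hsupp (k - 1) x hx]
        simp
        positivity
      · rw [not_lt] at hx
        have h1 : |x - (c : ℝ)| ≤ (R : ℝ) + (ub c : ℝ) :=
          (abs_sub _ _).trans (add_le_add hx (abs_le_ub c))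
        calc |(x - (c : ℝ)) * f k x + (k : ℝ) * f (k - 1) x|
            ≤ |(x - (c : ℝ)) * f k x| + |(k : ℝ) * f (k - 1) x| := abs_add_le _ _
          _ = |x - (c : ℝ)| * |f k x| + (k : ℝ) * |f (k - 1) x| := by
              rw [abs_mul, abs_mul, abs_of_nonneg (by positivity : (0 : ℝ) ≤ (k : ℝ))]
          _ ≤ ((R : ℝ) + (ub c : ℝ)) * (B k : ℝ) + (k : ℝ) * (B (k - 1) : ℝ) :=
              add_le_add (mul_le_mul h1 (hBe k x) (abs_nonneg _) (by positivity))
                (mul_le_mul_of_nonneg_left (hBe (k - 1) x) (by positivity))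

end Crest.Agent.S0170Aux
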