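import Mathlib
import Crest.Agent.S0170Aux.Defs
import Crest.Agent.S0170Aux.RatComp

/-! # S0170 auxiliary T4: derivatives from values by finite differences

`A (k,q,n) = H^k * ∑ i ∈ range (k+1), (-1)^(k-i) * choose k i * A0 (q + i/H, n')` with
`H = 2*k*B(k+1)*(n+1)+1`, `n' = 2^(k+1) * H^k * (n+1)`.
Analytic lemma (induction on `k`, generalising the family):
`Δ_h^k f_0 (x) = h^k f_k ξ` for some `ξ ∈ [x, x + k h]`, hence
`|Δ_h^k f_0 (x) / h^k - f_k x| ≤ k * h * sup |f_(k+1)|`. -/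

set_option autoImplicit false

namespace Crest.Agent.S0170Aux
namespace T4

lemma mvt_bound (g g' : ℝ → ℝ) (hg : ∀ x, HasDerivAt g (g' x) x) (C : ℝ) (hC : ∀ x, |g' x| ≤ C)
    (x y : ℝ) : |g y - g x| ≤ C * |y - x| := by
  have := Convex.norm_image_sub_le_of_norm_hasDerivWithin_le (f := g) (f' := g') (s := Set.univ)
    (C := C) (fun x _ => (hg x).hasDerivWithinAt) (fun x _ => by simpa using hC x) convex_univ
    (Set.mem_univ x) (Set.mem_univ y)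
  simpa using this

lemma exists_fwdDiff_iter_eq (k : ℕ) : ∀ (f : ℕ → ℝ → ℝ)
    (_ : ∀ j x, HasDerivAt (f j) (f (j + 1) x) x) (x h : ℝ) (_ : 0 < h),
    ∃ ξ ∈ Set.Icc x (x + k * h), (fwdDiff h)^[k] (f 0) x = h ^ k * f k ξ := by
  induction k with
  | zero =>
    intro f _ x h _
    exact ⟨x, by simp, by simp⟩
  | succ k ih =>
    intro f hd x h hh
    let g : ℕ → ℝ → ℝ := fun j y => f j (y + h) - f j y
    have hg : ∀ j y, HasDerivAt (g j) (g (j + 1) y) y := by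
      intro j y
      have h1 : HasDerivAt (fun y => f j (y + h)) (f (j + 1) (y + h)) y := by
        simpa using (hd j (y + h)).comp_add_const y h
      exact h1.sub (hd j y)
    obtain ⟨ξ, hξ, hξe⟩ := ih g hg x h hh
    have hlt : ξ < ξ + h := by linarith
    obtain ⟨c, hc, hce⟩ := exists_hasDerivAt_eq_slope (f k) (f (k + 1)) hlt
      (fun y _ => (hd k y).continuousAt.continuousWithinAt) (fun y _ => hd k y)
    refine ⟨c, ⟨by linarith [hξ.1, hc.1], ?_⟩, ?_⟩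
    · have := hξ.2
      have := hc.2
      push_cast
      linarith
    · have h0 : fwdDiff h (f 0) = g 0 := by
        ext y; simp [g, fwdDiff]
      rw [Function.iterate_succ_apply, h0, hξe, hce]
      simp only [g]
      have h1 : ξ + h - ξ = h := by ring
      rw [h1, pow_succ]
      field_simp

lemma fwdDiff_approx (f : ℕ → ℝ → ℝ) (hd : ∀ j x, HasDerivAt (f j) (f (j + 1) x) x)
    (k : ℕ) (C : ℝ) (hC : ∀ x, |f (k + 1) x| ≤ C) (x h : ℝ) (hh : 0 < h) :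
    |f k x - ((fwdDiff h)^[k] (f 0) x) / h ^ k| ≤ C * (k * h) := by
  obtain ⟨ξ, hξ, he⟩ := exists_fwdDiff_iter_eq k f hd x h hh
  have hC0 : 0 ≤ C := le_trans (abs_nonneg _) (hC x)
  rw [he, mul_div_cancel_left₀ _ (pow_ne_zero _ hh.ne'), abs_sub_comm]
  refine (mvt_bound (f k) (f (k + 1)) (hd k) C hC x ξ).trans ?_
  apply mul_le_mul_of_nonneg_left _ hC0
  rw [abs_of_nonneg (by linarith [hξ.1])]
  linarith [hξ.2]

/-- inverse mesh -/
def Hn (B : ℕ → ℕ) (k n : ℕ) : ℕ := 2 * k * B (k + 1) * (n + 1) + 1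

/-- requested precision for the values -/
def prec (B : ℕ → ℕ) (k n : ℕ) : ℕ := 2 ^ (k + 1) * (Hn B k n) ^ k * (n + 1)

/-- one term of the finite difference -/
def term (B : ℕ → ℕ) (A0 : ℚ × ℕ → ℚ) (p : ℕ × ℚ × ℕ) (i : ℕ) : ℚ :=
  ((-1 : ℚ) ^ (p.1 - i) * (p.1.choose i : ℚ)) *
    A0 (p.2.1 + (i : ℚ) / (Hn B p.1 p.2.2 : ℚ), prec B p.1 p.2.2)

/-- the approximator -/
def appr (B : ℕ → ℕ) (A0 : ℚ × ℕ → ℚ) (p : ℕ × ℚ × ℕ) : ℚ :=
  (Hn B p.1 p.2.2 : ℚ) ^ p.1 * ∑ i ∈ Finset.range (p.1 + 1), term B A0 p i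

lemma computable_Hn {B : ℕ → ℕ} (hB : Computable B) :
    Computable (fun p : ℕ × ℚ × ℕ => Hn B p.1 p.2.2) := by
  unfold Hn
  have hk : Computable (fun p : ℕ × ℚ × ℕ => p.1) := Computable.fst
  have hn : Computable (fun p : ℕ × ℚ × ℕ => p.2.2) := Computable.snd.comp Computable.snd
  have h1 : Computable (fun p : ℕ × ℚ × ℕ => 2 * p.1) :=
    Primrec.nat_mul.to_comp.comp (Computable.const 2) hk
  have h2 : Computable (fun p : ℕ × ℚ × ℕ => B (p.1 + 1)) :=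
    hB.comp (Computable.succ.comp hk)
  have h3 : Computable (fun p : ℕ × ℚ × ℕ => 2 * p.1 * B (p.1 + 1)) :=
    Primrec.nat_mul.to_comp.comp h1 h2
  have h4 : Computable (fun p : ℕ × ℚ × ℕ => 2 * p.1 * B (p.1 + 1) * (p.2.2 + 1)) :=
    Primrec.nat_mul.to_comp.comp h3 (Computable.succ.comp hn)
  exact Computable.succ.comp h4

lemma computable_prec {B : ℕ → ℕ} (hB : Computable B) :
    Computable (fun p : ℕ × ℚ × ℕ => prec B p.1 p.2.2) := by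
  unfold prec
  have hk : Computable (fun p : ℕ × ℚ × ℕ => p.1) := Computable.fst
  have hn : Computable (fun p : ℕ × ℚ × ℕ => p.2.2) := Computable.snd.comp Computable.snd
  have h1 : Computable (fun p : ℕ × ℚ × ℕ => 2 ^ (p.1 + 1)) :=
    nat_pow'.comp (Computable.const 2) (Computable.succ.comp hk)
  have h2 : Computable (fun p : ℕ × ℚ × ℕ => (Hn B p.1 p.2.2) ^ p.1) :=
    nat_pow'.comp (computable_Hn hB) hk
  exact Primrec.nat_mul.to_comp.comp (Primrec.nat_mul.to_comp.comp h1 h2)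
    (Computable.succ.comp hn)

lemma computable_term {B : ℕ → ℕ} (hB : Computable B) {A0 : ℚ × ℕ → ℚ} (hA : Computable A0) :
    Computable₂ (term B A0) := by
  unfold term
  have hp : Computable (fun z : (ℕ × ℚ × ℕ) × ℕ => z.1) := Computable.fst
  have hi : Computable (fun z : (ℕ × ℚ × ℕ) × ℕ => z.2) := Computable.snd
  have hk : Computable (fun z : (ℕ × ℚ × ℕ) × ℕ => z.1.1) := Computable.fst.comp hp
  have hq : Computable (fun z : (ℕ × ℚ × ℕ) × ℕ => z.1.2.1) :=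
    Computable.fst.comp (Computable.snd.comp hp)
  have h1 : Computable (fun z : (ℕ × ℚ × ℕ) × ℕ => (-1 : ℚ) ^ (z.1.1 - z.2)) :=
    rat_pow.comp (Computable.const (-1)) (Primrec.nat_sub.to_comp.comp hk hi)
  have h2 : Computable (fun z : (ℕ × ℚ × ℕ) × ℕ => ((z.1.1.choose z.2 : ℕ) : ℚ)) :=
    rat_natCast.comp (nat_choose.comp hk hi)
  have h3 : Computable (fun z : (ℕ × ℚ × ℕ) × ℕ => ((Hn B z.1.1 z.1.2.2 : ℕ) : ℚ)) :=
    rat_natCast.comp ((computable_Hn hB).comp hp)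
  have h4 : Computable (fun z : (ℕ × ℚ × ℕ) × ℕ =>
      z.1.2.1 + (z.2 : ℚ) / ((Hn B z.1.1 z.1.2.2 : ℕ) : ℚ)) :=
    rat_add.comp hq (rat_div.comp (rat_natCast.comp hi) h3)
  have h5 : Computable (fun z : (ℕ × ℚ × ℕ) × ℕ =>
      A0 (z.1.2.1 + (z.2 : ℚ) / ((Hn B z.1.1 z.1.2.2 : ℕ) : ℚ), prec B z.1.1 z.1.2.2)) :=
    hA.comp (h4.pair ((computable_prec hB).comp hp))
  exact rat_mul.comp (rat_mul.comp h1 h2) h5

lemma computable_appr {B : ℕ → ℕ} (hB : Computable B) {A0 : ℚ × ℕ → ℚ} (hA : Computable A0) :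
    Computable (appr B A0) := by
  unfold appr
  have hk : Computable (fun p : ℕ × ℚ × ℕ => p.1) := Computable.fst
  have h1 : Computable (fun p : ℕ × ℚ × ℕ => ((Hn B p.1 p.2.2 : ℕ) : ℚ) ^ p.1) :=
    rat_pow.comp (rat_natCast.comp (computable_Hn hB)) hk
  have h2 : Computable (fun p : ℕ × ℚ × ℕ => ∑ i ∈ Finset.range (p.1 + 1), term B A0 p i) :=
    rat_sum (computable_term hB hA) (Computable.succ.comp hk)
  exact rat_mul.comp h1 h2

lemma appr_error (f : ℕ → ℝ → ℝ) (hd : ∀ k x, HasDerivAt (f k) (f (k + 1) x) x)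
    (B : ℕ → ℕ) (hB : ∀ k x, |f k x| ≤ (B k : ℝ)) (A0 : ℚ × ℕ → ℚ)
    (hA : ∀ (q : ℚ) (n : ℕ), |f 0 (q : ℝ) - (A0 (q, n) : ℝ)| ≤ 1 / ((n : ℝ) + 1))
    (k : ℕ) (q : ℚ) (n : ℕ) :
    |f k (q : ℝ) - (appr B A0 (k, q, n) : ℝ)| ≤ 1 / ((n : ℝ) + 1) := by
  set H : ℕ := Hn B k n with hH
  set n' : ℕ := prec B k n with hn'
  have hHpos : (0 : ℝ) < (H : ℝ) := by
    have : 0 < H := by rw [hH]; unfold Hn; omega
    exact_mod_cast this
  set h : ℝ := 1 / (H : ℝ) with hh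
  have hhpos : 0 < h := by positivity
  have hn1 : (0 : ℝ) < (n : ℝ) + 1 := by positivity
  -- step 1
  have s1 : |f k (q : ℝ) - ((fwdDiff h)^[k] (f 0) (q : ℝ)) / h ^ k| ≤ 1 / (2 * ((n : ℝ) + 1)) := by
    refine (fwdDiff_approx f hd k (B (k + 1)) (hB (k + 1)) q h hhpos).trans ?_
    have hHge : (B (k + 1) : ℝ) * k * (2 * ((n : ℝ) + 1)) ≤ (H : ℝ) := by
      have : B (k + 1) * k * (2 * (n + 1)) ≤ H := by
        rw [hH]; unfold Hn; nlinarith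
      exact_mod_cast this
    rw [hh]
    rw [show (B (k + 1) : ℝ) * ((k : ℝ) * (1 / (H : ℝ))) = ((B (k + 1) : ℝ) * k) / H by ring]
    rw [div_le_div_iff₀ hHpos (by positivity)]
    linarith
  -- step 2
  have e1 : ((fwdDiff h)^[k] (f 0) (q : ℝ)) / h ^ k =
      (H : ℝ) ^ k * ∑ i ∈ Finset.range (k + 1),
        ((-1 : ℝ) ^ (k - i) * (k.choose i : ℝ)) * f 0 (((q + (i : ℚ) / (H : ℚ) : ℚ)) : ℝ) := by
    rw [fwdDiff_iter_eq_sum_shift, hh, one_div, inv_pow, div_inv_eq_mul, mul_comm]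
    congr 1
    apply Finset.sum_congr rfl
    intro i _
    simp only [zsmul_eq_mul, nsmul_eq_mul]
    push_cast
    ring_nf
  have e2 : ((appr B A0 (k, q, n) : ℚ) : ℝ) =
      (H : ℝ) ^ k * ∑ i ∈ Finset.range (k + 1),
        ((-1 : ℝ) ^ (k - i) * (k.choose i : ℝ)) * ((A0 (q + (i : ℚ) / (H : ℚ), n') : ℚ) : ℝ) := by
    unfold appr term
    push_cast
    rfl
  have s2 : |((fwdDiff h)^[k] (f 0) (q : ℝ)) / h ^ k - (appr B A0 (k, q, n) : ℝ)|
      ≤ 1 / (2 * ((n : ℝ) + 1)) := by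
    rw [e1, e2, ← mul_sub, ← Finset.sum_sub_distrib, abs_mul, abs_of_pos (pow_pos hHpos k)]
    have b1 : |∑ i ∈ Finset.range (k + 1),
        (((-1 : ℝ) ^ (k - i) * (k.choose i : ℝ)) * f 0 (((q + (i : ℚ) / (H : ℚ) : ℚ)) : ℝ) -
          ((-1 : ℝ) ^ (k - i) * (k.choose i : ℝ)) * ((A0 (q + (i : ℚ) / (H : ℚ), n') : ℚ) : ℝ))|
        ≤ ∑ i ∈ Finset.range (k + 1), (k.choose i : ℝ) * (1 / ((n' : ℝ) + 1)) := by
      refine (Finset.abs_sum_le_sum_abs _ _).trans (Finset.sum_le_sum fun i _ => ?_)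
      rw [← mul_sub, abs_mul, abs_mul, abs_pow, abs_neg, abs_one, one_pow, one_mul,
        abs_of_nonneg (Nat.cast_nonneg _)]
      exact mul_le_mul_of_nonneg_left (hA _ _) (Nat.cast_nonneg _)
    have b2 : ∑ i ∈ Finset.range (k + 1), (k.choose i : ℝ) * (1 / ((n' : ℝ) + 1))
        = (2 : ℝ) ^ k * (1 / ((n' : ℝ) + 1)) := by
      rw [← Finset.sum_mul]
      congr 1
      exact_mod_cast Nat.sum_range_choose k
    have b3 : (2 : ℝ) ^ (k + 1) * (H : ℝ) ^ k * ((n : ℝ) + 1) ≤ (n' : ℝ) + 1 := by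
      have : ((2 ^ (k + 1) * H ^ k * (n + 1) : ℕ) : ℝ) = (n' : ℝ) := by
        rw [hn']; unfold prec; rfl
      push_cast at this
      linarith
    calc (H : ℝ) ^ k * _ ≤ (H : ℝ) ^ k * ((2 : ℝ) ^ k * (1 / ((n' : ℝ) + 1))) := by
          apply mul_le_mul_of_nonneg_left _ (pow_pos hHpos k).le
          exact b1.trans b2.le
      _ = ((H : ℝ) ^ k * (2 : ℝ) ^ k) / ((n' : ℝ) + 1) := by ring
      _ ≤ 1 / (2 * ((n : ℝ) + 1)) := by
          rw [div_le_div_iff₀ (by positivity) (by positivity)]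
          calc (H : ℝ) ^ k * 2 ^ k * (2 * ((n : ℝ) + 1))
              = (2 : ℝ) ^ (k + 1) * (H : ℝ) ^ k * ((n : ℝ) + 1) := by ring
            _ ≤ 1 * ((n' : ℝ) + 1) := by linarith
  calc |f k (q : ℝ) - (appr B A0 (k, q, n) : ℝ)|
      ≤ |f k (q : ℝ) - ((fwdDiff h)^[k] (f 0) (q : ℝ)) / h ^ k| +
        |((fwdDiff h)^[k] (f 0) (q : ℝ)) / h ^ k - (appr B A0 (k, q, n) : ℝ)| :=
        abs_sub_le _ _ _
    _ ≤ 1 / (2 * ((n : ℝ) + 1)) + 1 / (2 * ((n : ℝ) + 1)) := add_le_add s1 s2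
    _ = 1 / ((n : ℝ) + 1) := by field_simp; ring

end T4

theorem eff1_of_approx0 (f : ℕ → ℝ → ℝ) (hd : ∀ k x, HasDerivAt (f k) (f (k + 1) x) x)
    (hB : ∃ B : ℕ → ℕ, Computable B ∧ ∀ k x, |f k x| ≤ (B k : ℝ))
    (hA : ∃ A0 : ℚ × ℕ → ℚ, Computable A0 ∧
      ∀ (q : ℚ) (n : ℕ), |f 0 (q : ℝ) - (A0 (q, n) : ℝ)| ≤ 1 / ((n : ℝ) + 1)) :
    Eff1 f := by
  obtain ⟨B, hBc, hBb⟩ := hB
  obtain ⟨A0, hAc, hAb⟩ := hA
  exact ⟨hd, ⟨T4.appr B A0, T4.computable_appr hBc hAc, T4.appr_error f hd B hBb A0 hAb⟩,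
    ⟨B, hBc, hBb⟩⟩

end Crest.Agent.S0170Aux
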