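import Mathlib
import Crest.Agent.S0170Aux.Defs
import Crest.Agent.S0170Aux.RatComp

/-! # S0170 auxiliary T6a: tensor products of 1D effective families are effective scalar families -/

set_option autoImplicit false
open Crest.AnalysisR.BoxFlow

namespace Crest.Agent.S0170Aux

namespace T6a

theorem count_computable (d : Fin 4) : Computable (fun ds : List (Fin 4) => ds.count d) := by
  have h : Primrec (fun ds : List (Fin 4) => (ds.filter (fun x => x == d)).length) := by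
    refine Primrec.list_length.comp ?_
    have : PrimrecPred (fun x : Fin 4 => x = d) := Primrec.eq.comp Primrec.id (Primrec.const d)
    have h2 := Primrec.listFilter this
    refine h2.of_eq ?_
    intro L
    congr 1
  refine (h.of_eq ?_).to_comp
  intro ds
  rw [List.count_eq_length_filter]

theorem coord_computable (i : Fin 3) : Computable (fun q : Fin 3 → ℚ => q i) :=
  (Primrec.fin_app.comp Primrec.id (Primrec.const i)).to_comp

theorem hasFDerivAt_tensor (F : Fin 4 → ℕ → ℝ → ℝ) (hF : ∀ d, Eff1 (F d)) (κ : Fin 4 → ℕ)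
    (ds : List (Fin 4)) (p : ST) :
    ∃ L : ST →L[ℝ] ℝ, HasFDerivAt (tensor F κ ds) L p ∧
      ∀ d, L (direction d) = tensor F κ (d :: ds) p := by
  have h0 : HasFDerivAt (fun p : ST => F 0 (κ 0 + ds.count 0) p.1)
      (F 0 (κ 0 + ds.count 0 + 1) p.1 • ContinuousLinearMap.fst ℝ ℝ E3) p :=
    ((hF 0).hasDeriv _ p.1).comp_hasFDerivAt p hasFDerivAt_fst
  have hc : ∀ i : Fin 3, HasFDerivAt (fun p : ST => p.2 i)
      ((ContinuousLinearMap.proj i).comp (ContinuousLinearMap.snd ℝ ℝ E3)) p := fun i =>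
    ((ContinuousLinearMap.proj (R := ℝ) (φ := fun _ : Fin 3 => ℝ) i).comp
      (ContinuousLinearMap.snd ℝ ℝ E3)).hasFDerivAt
  have h1 : HasFDerivAt (fun p : ST => F 1 (κ 1 + ds.count 1) (p.2 0)) _ p :=
    ((hF 1).hasDeriv _ (p.2 0)).comp_hasFDerivAt p (hc 0)
  have h2 : HasFDerivAt (fun p : ST => F 2 (κ 2 + ds.count 2) (p.2 1)) _ p :=
    ((hF 2).hasDeriv _ (p.2 1)).comp_hasFDerivAt p (hc 1)
  have h3 : HasFDerivAt (fun p : ST => F 3 (κ 3 + ds.count 3) (p.2 2)) _ p :=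
    ((hF 3).hasDeriv _ (p.2 2)).comp_hasFDerivAt p (hc 2)
  refine ⟨_, ((h0.mul h1).mul h2).mul h3, ?_⟩
  intro d
  fin_cases d
  · simp [direction, tensor, add_assoc]
    ring
  · simp [direction, tensor, add_assoc, Fin.pred]
    ring
  · simp [direction, tensor, add_assoc, Fin.pred]
    ring
  · simp [direction, tensor, add_assoc, Fin.pred]

/-- error of a product of two approximations -/
theorem mul_err {x a y b e1 e2 cy ca : ℝ} (h1 : |x - a| ≤ e1) (h2 : |y - b| ≤ e2)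
    (hy : |y| ≤ cy) (ha : |a| ≤ ca) : |x * y - a * b| ≤ e1 * cy + ca * e2 := by
  have : x * y - a * b = (x - a) * y + a * (y - b) := by ring
  rw [this]
  refine (abs_add_le _ _).trans ?_
  rw [abs_mul, abs_mul]
  have he1 : 0 ≤ e1 := (abs_nonneg _).trans h1
  have hca : 0 ≤ ca := (abs_nonneg _).trans ha
  exact add_le_add (mul_le_mul h1 hy (abs_nonneg _) he1) (mul_le_mul ha h2 (abs_nonneg _) hca)

theorem abs_mul_le {x y cx cy : ℝ} (hx : |x| ≤ cx) (hy : |y| ≤ cy) : |x * y| ≤ cx * cy := by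
  rw [abs_mul]
  exact mul_le_mul hx hy (abs_nonneg _) ((abs_nonneg _).trans hx)

/-- error of a product of four approximations -/
theorem prod4_err {x0 x1 x2 x3 a0 a1 a2 a3 c0 c1 c2 c3 e : ℝ}
    (hc0 : 1 ≤ c0) (hc1 : 1 ≤ c1) (hc2 : 1 ≤ c2) (hc3 : 1 ≤ c3) (he : 0 ≤ e)
    (hx1 : |x1| ≤ c1) (hx2 : |x2| ≤ c2) (hx3 : |x3| ≤ c3)
    (ha0 : |a0| ≤ c0) (ha1 : |a1| ≤ c1) (ha2 : |a2| ≤ c2)
    (h0 : |x0 - a0| ≤ e) (h1 : |x1 - a1| ≤ e) (h2 : |x2 - a2| ≤ e) (h3 : |x3 - a3| ≤ e) :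
    |x0 * x1 * x2 * x3 - a0 * a1 * a2 * a3| ≤ 4 * e * (c0 * c1 * c2 * c3) := by
  have s1 := mul_err h0 h1 hx1 ha0
  have s2 := mul_err s1 h2 hx2 (abs_mul_le ha0 ha1)
  have s3 := mul_err s2 h3 hx3 (abs_mul_le (abs_mul_le ha0 ha1) ha2)
  refine s3.trans ?_
  have p0 : 0 ≤ c0 := by linarith
  have p1 : 0 ≤ c1 := by linarith
  have p2 : 0 ≤ c2 := by linarith
  have p3 : 0 ≤ c3 := by linarith
  have t1 : c1 * c2 * c3 ≤ c0 * c1 * c2 * c3 := by
    have : 0 ≤ c1 * c2 * c3 := by positivity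
    nlinarith
  have t2 : c0 * c2 * c3 ≤ c0 * c1 * c2 * c3 := by
    have : 0 ≤ c0 * c2 * c3 := by positivity
    nlinarith
  have t3 : c0 * c1 * c3 ≤ c0 * c1 * c2 * c3 := by
    have : 0 ≤ c0 * c1 * c3 := by positivity
    nlinarith
  have t4 : c0 * c1 * c2 ≤ c0 * c1 * c2 * c3 := by
    have : 0 ≤ c0 * c1 * c2 := by positivity
    nlinarith
  have : ((e * c1 + c0 * e) * c2 + c0 * c1 * e) * c3 + c0 * c1 * c2 * e
      = e * (c1 * c2 * c3 + c0 * c2 * c3 + c0 * c1 * c3 + c0 * c1 * c2) := by ring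
  rw [this]
  have : 4 * e * (c0 * c1 * c2 * c3) = e * (4 * (c0 * c1 * c2 * c3)) := by ring
  rw [this]
  exact mul_le_mul_of_nonneg_left (by linarith) he

end T6a

open T6a in
theorem SFam.tensor (F : Fin 4 → ℕ → ℝ → ℝ) (hF : ∀ d, Eff1 (F d)) (κ : Fin 4 → ℕ) :
    SFam (tensor F κ) := by
  choose A hAc hA using fun d => (hF d).approx
  choose B hBc hB using fun d => (hF d).bound
  -- the derivative orders
  have hK : ∀ d : Fin 4, Computable (fun ds : List (Fin 4) => κ d + ds.count d) := fun d =>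
    (Primrec.nat_add.to_comp).comp (Computable.const (κ d)) (count_computable d)
  have hBK : ∀ d : Fin 4, Computable (fun ds : List (Fin 4) => B d (κ d + ds.count d)) := fun d =>
    (hBc d).comp (hK d)
  refine ⟨?_, ?_, ?_, ?_⟩
  · intro ds p
    obtain ⟨L, hL, -⟩ := hasFDerivAt_tensor F hF κ ds p
    exact hL.differentiableAt
  · intro ds p d
    obtain ⟨L, hL, hd⟩ := hasFDerivAt_tensor F hF κ ds p
    rw [hL.fderiv, hd]
  · -- approximation
    have hB1 : ∀ d : Fin 4, Computable (fun ds : List (Fin 4) => B d (κ d + ds.count d) + 1) :=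
      fun d => Computable.succ.comp (hBK d)
    let P : List (Fin 4) → ℕ := fun ds => (B 0 (κ 0 + ds.count 0) + 1) *
      (B 1 (κ 1 + ds.count 1) + 1) * (B 2 (κ 2 + ds.count 2) + 1) * (B 3 (κ 3 + ds.count 3) + 1)
    have hP : Computable P := (Primrec.nat_mul.to_comp).comp ((Primrec.nat_mul.to_comp).comp
        ((Primrec.nat_mul.to_comp).comp (hB1 0) (hB1 1)) (hB1 2)) (hB1 3)
    let m : List (Fin 4) × (ℚ × (Fin 3 → ℚ)) × ℕ → ℕ := fun a => 4 * (a.2.2 + 1) * P a.1
    have hm : Computable m := (Primrec.nat_mul.to_comp).comp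
      ((Primrec.nat_mul.to_comp).comp (Computable.const 4)
        (Computable.succ.comp (Computable.snd.comp Computable.snd))) (hP.comp Computable.fst)
    have hq : ∀ i : Fin 3, Computable
        (fun a : List (Fin 4) × (ℚ × (Fin 3 → ℚ)) × ℕ => a.2.1.2 i) := fun i =>
      (coord_computable i).comp (Computable.snd.comp (Computable.fst.comp Computable.snd))
    have ht : Computable (fun a : List (Fin 4) × (ℚ × (Fin 3 → ℚ)) × ℕ => a.2.1.1) :=
      Computable.fst.comp (Computable.fst.comp Computable.snd)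
    refine ⟨fun a => A 0 (κ 0 + a.1.count 0, a.2.1.1, m a) * A 1 (κ 1 + a.1.count 1, a.2.1.2 0, m a) *
      A 2 (κ 2 + a.1.count 2, a.2.1.2 1, m a) * A 3 (κ 3 + a.1.count 3, a.2.1.2 2, m a), ?_, ?_⟩
    · exact rat_mul.comp (rat_mul.comp (rat_mul.comp
        ((hAc 0).comp (((hK 0).comp Computable.fst).pair (ht.pair hm)))
        ((hAc 1).comp (((hK 1).comp Computable.fst).pair ((hq 0).pair hm))))
        ((hAc 2).comp (((hK 2).comp Computable.fst).pair ((hq 1).pair hm))))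
        ((hAc 3).comp (((hK 3).comp Computable.fst).pair ((hq 2).pair hm)))
    · intro ds t q n
      set M : ℕ := m (ds, (t, q), n) with hM
      have hMval : (M : ℝ) = 4 * ((n : ℝ) + 1) * (P ds : ℝ) := by
        simp [hM, m]
      have hPpos : (1 : ℝ) ≤ (P ds : ℝ) := by
        have : 1 ≤ P ds := Nat.succ_le_of_lt (by positivity)
        exact_mod_cast this
      set e : ℝ := 1 / ((M : ℝ) + 1) with he
      have he0 : 0 ≤ e := by positivity
      have he1 : e ≤ 1 := by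
        rw [he, div_le_one (by positivity)]
        have : (0 : ℝ) ≤ M := Nat.cast_nonneg _
        linarith
      have habs : ∀ {x a c : ℝ}, |x| ≤ c → |x - a| ≤ e → |a| ≤ c + 1 := by
        intro x a c h1 h2
        have : a = x - (x - a) := by ring
        rw [this]
        refine (abs_sub _ _).trans ?_
        linarith
      have hle : ∀ {x c : ℝ}, |x| ≤ c → |x| ≤ c + 1 := fun h => by linarith
      have hc1 : ∀ b : ℕ, (1 : ℝ) ≤ (b : ℝ) + 1 := fun b => by
        have : (0 : ℝ) ≤ b := Nat.cast_nonneg _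
        linarith
      have key := prod4_err (hc1 (B 0 (κ 0 + ds.count 0))) (hc1 (B 1 (κ 1 + ds.count 1)))
        (hc1 (B 2 (κ 2 + ds.count 2))) (hc1 (B 3 (κ 3 + ds.count 3))) he0
        (hle (hB 1 (κ 1 + ds.count 1) (q 0 : ℝ))) (hle (hB 2 (κ 2 + ds.count 2) (q 1 : ℝ)))
        (hle (hB 3 (κ 3 + ds.count 3) (q 2 : ℝ)))
        (habs (hB 0 (κ 0 + ds.count 0) (t : ℝ)) (hA 0 (κ 0 + ds.count 0) t M))
        (habs (hB 1 (κ 1 + ds.count 1) (q 0 : ℝ)) (hA 1 (κ 1 + ds.count 1) (q 0) M))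
        (habs (hB 2 (κ 2 + ds.count 2) (q 1 : ℝ)) (hA 2 (κ 2 + ds.count 2) (q 1) M))
        (hA 0 (κ 0 + ds.count 0) t M) (hA 1 (κ 1 + ds.count 1) (q 0) M)
        (hA 2 (κ 2 + ds.count 2) (q 1) M) (hA 3 (κ 3 + ds.count 3) (q 2) M)
      have hPc : (P ds : ℝ) = ((B 0 (κ 0 + ds.count 0) : ℝ) + 1) * ((B 1 (κ 1 + ds.count 1) : ℝ) + 1) *
          ((B 2 (κ 2 + ds.count 2) : ℝ) + 1) * ((B 3 (κ 3 + ds.count 3) : ℝ) + 1) := by
        simp [P]
      rw [← hPc] at key
      have hfin : 4 * e * (P ds : ℝ) ≤ 1 / ((n : ℝ) + 1) := by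
        rw [he, hMval]
        have hn : (0 : ℝ) < (n : ℝ) + 1 := by positivity
        rw [mul_one_div, div_mul_eq_mul_div, div_le_div_iff₀ (by positivity) hn]
        nlinarith
      refine le_trans ?_ (key.trans hfin)
      apply le_of_eq
      simp only [Crest.Agent.S0170Aux.tensor, ratPoint]
      push_cast
      rfl
  · -- bound
    refine ⟨fun ds => B 0 (κ 0 + ds.count 0) * B 1 (κ 1 + ds.count 1) * B 2 (κ 2 + ds.count 2) *
      B 3 (κ 3 + ds.count 3), ?_, ?_⟩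
    · exact (Primrec.nat_mul.to_comp).comp ((Primrec.nat_mul.to_comp).comp
        ((Primrec.nat_mul.to_comp).comp (hBK 0) (hBK 1)) (hBK 2)) (hBK 3)
    · intro ds p
      push_cast
      exact abs_mul_le (abs_mul_le (abs_mul_le (hB 0 _ _) (hB 1 _ _)) (hB 2 _ _)) (hB 3 _ _)

end Crest.Agent.S0170Aux
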