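import Mathlib
import Crest.Agent.S0170Aux.RatComp

/-! # S0170 auxiliary T3: computable rational approximation of `Real.smoothTransition` at rationals

For `0 < q < 1`, `s q = 1 / (1 + exp r)` with `r = 1/q - 1/(1-q)`; take
`A0 (q,n) = 1 / (1 + (1 + r/N)^N)` with `N = (|num r| + 1)^2 * (n+1)`; then
`(1+r/N)^N ≤ exp r ≤ (1-r/N)^(-N)` (`Real.add_one_le_exp`) and the error is at most
`1 - (1 - r^2/N^2)^N ≤ r^2/N` (Bernoulli, `one_add_mul_le_pow`). For `q ≤ 0` output `0`, for `1 ≤ q` output `1`. -/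

set_option autoImplicit false

namespace Crest.Agent.S0170Aux

namespace T3

/-- the exponent -/
def rOf (q : ℚ) : ℚ := q⁻¹ - (1 - q)⁻¹

/-- the number of factors -/
def NOf (q : ℚ) (n : ℕ) : ℕ := ((rOf q).num.natAbs + 1) ^ 2 * (n + 1)

/-- the approximant -/
def A0 (p : ℚ × ℕ) : ℚ :=
  if p.1 ≤ 0 then 0 else if 1 ≤ p.1 then 1 else
    (1 + (1 + rOf p.1 / (NOf p.1 p.2 : ℚ)) ^ (NOf p.1 p.2))⁻¹

theorem smoothTransition_eq {x : ℝ} (h0 : 0 < x) (h1 : x < 1) :
    Real.smoothTransition x = (1 + Real.exp (x⁻¹ - (1 - x)⁻¹))⁻¹ := by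
  have h1' : 0 < 1 - x := by linarith
  rw [Real.smoothTransition, expNegInvGlue, expNegInvGlue, if_neg (not_le.2 h0),
    if_neg (not_le.2 h1')]
  have e1 : Real.exp (x⁻¹ - (1 - x)⁻¹) = Real.exp (-(1 - x)⁻¹) / Real.exp (-x⁻¹) := by
    rw [← Real.exp_sub]; congr 1; ring
  rw [e1]
  have hp := Real.exp_pos (-x⁻¹)
  have hp' := Real.exp_pos (-(1 - x)⁻¹)
  field_simp

/-- the analytic estimate -/
theorem exp_approx (r : ℝ) (N : ℕ) (hN : 0 < N) (hr : |r| < N) :
    |(1 + Real.exp r)⁻¹ - (1 + (1 + r / N) ^ N)⁻¹| ≤ r ^ 2 / N := by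
  have hNr : (0 : ℝ) < N := by exact_mod_cast hN
  have habs := abs_lt.1 hr
  have hpos1 : 0 < 1 + r / N := by
    have : -1 < r / N := by rw [lt_div_iff₀ hNr]; linarith [habs.1]
    linarith
  have hpos2 : 0 < 1 - r / N := by
    have : r / N < 1 := by rw [div_lt_iff₀ hNr]; linarith [habs.2]
    linarith
  set L : ℝ := (1 + r / N) ^ N with hL
  set M : ℝ := (1 - r / N) ^ N with hM
  have hLpos : 0 < L := pow_pos hpos1 N
  have hMpos : 0 < M := pow_pos hpos2 N
  have hE := Real.exp_pos r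
  -- L ≤ exp r
  have hLle : L ≤ Real.exp r := by
    have h1 : 1 + r / N ≤ Real.exp (r / N) := by
      have := Real.add_one_le_exp (r / N); linarith
    have h2 : (1 + r / N) ^ N ≤ Real.exp (r / N) ^ N := pow_le_pow_left₀ hpos1.le h1 N
    have h3 : Real.exp (r / N) ^ N = Real.exp r := by
      rw [← Real.exp_nat_mul]; congr 1; field_simp
    rw [hL]; linarith [h2, h3.le, h3.ge]
  -- M ≤ exp (-r)
  have hMle : M ≤ Real.exp (-r) := by
    have h1 : 1 - r / N ≤ Real.exp (-(r / N)) := by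
      have := Real.add_one_le_exp (-(r / N)); linarith
    have h2 : (1 - r / N) ^ N ≤ Real.exp (-(r / N)) ^ N := pow_le_pow_left₀ hpos2.le h1 N
    have h3 : Real.exp (-(r / N)) ^ N = Real.exp (-r) := by
      rw [← Real.exp_nat_mul]; congr 1; field_simp
    rw [hM]; linarith [h2, h3.le, h3.ge]
  -- Bernoulli
  have hLM : 1 - r ^ 2 / N ≤ L * M := by
    have h1 : L * M = (1 + -(r / N) ^ 2) ^ N := by
      rw [hL, hM, ← mul_pow]; congr 1; ring
    have hsq : (r / N) ^ 2 ≤ 1 := by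
      have : |r / N| ≤ 1 := by
        rw [abs_div, abs_of_pos hNr, div_le_one hNr]; exact hr.le
      have h2 := sq_le_sq' (by linarith [abs_le.1 this]) (abs_le.1 this).2
      simpa using h2
    have h2 : 1 + (N : ℝ) * (-(r / N) ^ 2) ≤ (1 + -(r / N) ^ 2) ^ N :=
      one_add_mul_le_pow (by linarith) N
    have h3 : (N : ℝ) * (-(r / N) ^ 2) = - (r ^ 2 / N) := by
      field_simp
    rw [h1]; linarith [h2, h3.le, h3.ge]
  -- so exp r - L ≤ exp r * (r^2/N)
  have hkey : Real.exp r - L ≤ Real.exp r * (r ^ 2 / N) := by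
    have h1 : L * M ≤ L * Real.exp (-r) := mul_le_mul_of_nonneg_left hMle hLpos.le
    have h2 : 1 - r ^ 2 / N ≤ L * Real.exp (-r) := le_trans hLM h1
    have h3 : Real.exp r * (1 - r ^ 2 / N) ≤ Real.exp r * (L * Real.exp (-r)) :=
      mul_le_mul_of_nonneg_left h2 hE.le
    have h4 : Real.exp r * (L * Real.exp (-r)) = L := by
      rw [mul_comm L, ← mul_assoc, ← Real.exp_add]; simp
    nlinarith [h3, h4.le, h4.ge]
  have hd : (1 + Real.exp r)⁻¹ - (1 + L)⁻¹ = -((Real.exp r - L) / ((1 + Real.exp r) * (1 + L))) := by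
    have a1 : (1 + Real.exp r) ≠ 0 := by positivity
    have a2 : (1 + L) ≠ 0 := by positivity
    field_simp
    ring
  rw [hd, abs_neg, abs_of_nonneg (div_nonneg (by linarith) (by positivity))]
  rw [div_le_iff₀ (by positivity)]
  have hq : 0 ≤ r ^ 2 / N := by positivity
  have hbig : Real.exp r ≤ (1 + Real.exp r) * (1 + L) := by nlinarith
  calc Real.exp r - L ≤ Real.exp r * (r ^ 2 / N) := hkey
    _ = r ^ 2 / N * Real.exp r := by ring
    _ ≤ r ^ 2 / N * ((1 + Real.exp r) * (1 + L)) := mul_le_mul_of_nonneg_left hbig hq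

theorem abs_le_natAbs_num (r : ℚ) : |(r : ℝ)| ≤ (r.num.natAbs : ℝ) := by
  have h1 : |r| ≤ (r.num.natAbs : ℚ) := by
    have hden : (1 : ℚ) ≤ (r.den : ℚ) := by exact_mod_cast r.den_pos
    have hr : r = (r.num : ℚ) / (r.den : ℚ) := (Rat.num_div_den r).symm
    have habs : |r| = |(r.num : ℚ)| / (r.den : ℚ) := by
      conv_lhs => rw [hr]
      rw [abs_div, abs_of_pos (by linarith : (0 : ℚ) < (r.den : ℚ))]
    have hn : |(r.num : ℚ)| = (r.num.natAbs : ℚ) := by
      rw [← Int.cast_abs, Int.abs_eq_natAbs]; simp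
    rw [habs, hn]
    exact div_le_self (by positivity) hden
  have h2 : ((|r| : ℚ) : ℝ) ≤ ((r.num.natAbs : ℚ) : ℝ) := by exact_mod_cast h1
  simpa using h2

theorem A0_spec (q : ℚ) (n : ℕ) :
    |Real.smoothTransition (q : ℝ) - (A0 (q, n) : ℝ)| ≤ 1 / ((n : ℝ) + 1) := by
  have hn : (0 : ℝ) < (n : ℝ) + 1 := by positivity
  unfold A0
  by_cases h0 : q ≤ 0
  · have : (q : ℝ) ≤ 0 := by exact_mod_cast h0
    simp only [h0, if_true]
    rw [Real.smoothTransition.zero_of_nonpos this]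
    simp; positivity
  · by_cases h1 : 1 ≤ q
    · have : (1 : ℝ) ≤ (q : ℝ) := by exact_mod_cast h1
      simp only [h0, h1, if_true, if_false]
      rw [Real.smoothTransition.one_of_one_le this]
      simp; positivity
    · simp only [h0, h1, if_false]
      have h0' : (0 : ℝ) < (q : ℝ) := by exact_mod_cast not_le.1 h0
      have h1' : (q : ℝ) < 1 := by exact_mod_cast not_le.1 h1
      rw [smoothTransition_eq h0' h1']
      set r : ℚ := rOf q with hr
      set N : ℕ := NOf q n with hN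
      have hrr : ((q : ℝ))⁻¹ - (1 - (q : ℝ))⁻¹ = (r : ℝ) := by
        rw [hr, rOf]; push_cast; ring
      rw [hrr]
      have hcast : (((1 + (1 + r / (N : ℚ)) ^ N)⁻¹ : ℚ) : ℝ) = (1 + (1 + (r : ℝ) / (N : ℝ)) ^ N)⁻¹ := by
        push_cast; ring
      rw [hcast]
      set a : ℕ := r.num.natAbs with ha
      have hNdef : N = (a + 1) ^ 2 * (n + 1) := by rw [hN, NOf]
      have hra : |(r : ℝ)| ≤ (a : ℝ) := abs_le_natAbs_num r
      have hNpos : 0 < N := by rw [hNdef]; positivity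
      have hNr : (N : ℝ) = ((a : ℝ) + 1) ^ 2 * ((n : ℝ) + 1) := by rw [hNdef]; push_cast; ring
      have ha0 : (0 : ℝ) ≤ (a : ℝ) := by positivity
      have hn0 : (0 : ℝ) ≤ (n : ℝ) := by positivity
      have hlt : |(r : ℝ)| < (N : ℝ) := by
        rw [hNr]
        have : (a : ℝ) + 1 ≤ ((a : ℝ) + 1) ^ 2 * ((n : ℝ) + 1) := by nlinarith [mul_nonneg ha0 hn0, mul_nonneg (mul_nonneg ha0 ha0) hn0]
        linarith
      refine le_trans (exp_approx (r : ℝ) N hNpos hlt) ?_
      rw [hNr, div_le_div_iff₀ (by positivity) hn]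
      have hsq : (r : ℝ) ^ 2 ≤ ((a : ℝ) + 1) ^ 2 := by
        have := abs_le.1 hra
        nlinarith [this.1, this.2]
      nlinarith [hsq]

theorem computable_rOf : Computable rOf := by
  unfold rOf
  refine rat_sub.comp rat_inv ?_
  exact rat_inv.comp (rat_sub.comp (Computable.const 1) Computable.id)

theorem computable_NOf : Computable₂ NOf := by
  unfold NOf
  have h1 : Computable (fun p : ℚ × ℕ => (rOf p.1).num.natAbs + 1) :=
    Computable.succ.comp (rat_natAbs_num.comp (computable_rOf.comp Computable.fst))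
  have h2 : Computable (fun p : ℚ × ℕ => ((rOf p.1).num.natAbs + 1) ^ 2) :=
    nat_pow'.comp h1 (Computable.const 2)
  have h3 : Computable (fun p : ℚ × ℕ => p.2 + 1) := Computable.succ.comp Computable.snd
  exact (Primrec.nat_mul.to_comp).comp h2 h3

theorem computable_A0 : Computable A0 := by
  unfold A0
  have hN : Computable (fun p : ℚ × ℕ => NOf p.1 p.2) := computable_NOf
  have hr : Computable (fun p : ℚ × ℕ => rOf p.1) := computable_rOf.comp Computable.fst
  have hNq : Computable (fun p : ℚ × ℕ => (NOf p.1 p.2 : ℚ)) := rat_natCast.comp hN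
  have hbase : Computable (fun p : ℚ × ℕ => 1 + rOf p.1 / (NOf p.1 p.2 : ℚ)) :=
    rat_add.comp (Computable.const 1) (rat_div.comp hr hNq)
  have hpow : Computable (fun p : ℚ × ℕ => (1 + rOf p.1 / (NOf p.1 p.2 : ℚ)) ^ (NOf p.1 p.2)) :=
    rat_pow.comp hbase hN
  have hmain : Computable (fun p : ℚ × ℕ =>
      (1 + (1 + rOf p.1 / (NOf p.1 p.2 : ℚ)) ^ (NOf p.1 p.2))⁻¹) :=
    rat_inv.comp (rat_add.comp (Computable.const 1) hpow)
  refine comp_ite (rat_le.comp Computable.fst (Computable.const 0)) (Computable.const 0) ?_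
  exact comp_ite (rat_le.comp (Computable.const 1) Computable.fst) (Computable.const 1) hmain

end T3

theorem step_approx0 : ∃ A0 : ℚ × ℕ → ℚ, Computable A0 ∧
    ∀ (q : ℚ) (n : ℕ), |Real.smoothTransition (q : ℝ) - (A0 (q, n) : ℝ)| ≤ 1 / ((n : ℝ) + 1) :=
  ⟨T3.A0, T3.computable_A0, T3.A0_spec⟩

end Crest.Agent.S0170Aux
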