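import Mathlib

/-! # S0170 auxiliary T2: explicit computable bounds for all derivatives of `Real.smoothTransition` -/

set_option autoImplicit false

namespace Crest.Agent.S0170Aux

/-- the `k`-th derivative of the smooth step -/
noncomputable def stepD (k : ℕ) : ℝ → ℝ := iteratedDeriv k Real.smoothTransition

theorem stepD_zero : stepD 0 = Real.smoothTransition := by
  simp [stepD]

theorem stepD_hasDerivAt (k : ℕ) (x : ℝ) : HasDerivAt (stepD k) (stepD (k + 1) x) x := by
  have h : Differentiable ℝ (iteratedDeriv k Real.smoothTransition) :=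
    (Real.smoothTransition.contDiff (n := ⊤)).differentiable_iteratedDeriv k
      (by exact_mod_cast WithTop.coe_lt_top _)
  have := (h x).hasDerivAt
  simpa [stepD, iteratedDeriv_succ] using this

namespace T2

open Real Set

theorem stepD_continuous (k : ℕ) : Continuous (stepD k) :=
  continuous_iff_continuousAt.2 fun x => (stepD_hasDerivAt k x).continuousAt

/-- on an open set where `stepD k` is locally constant, the next derivative vanishes -/
theorem stepD_succ_eq_zero_of_const {U : Set ℝ} (hU : IsOpen U) (k : ℕ) (c : ℝ)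
    (h : ∀ x ∈ U, stepD k x = c) : ∀ x ∈ U, stepD (k + 1) x = 0 := by
  intro x hx
  have h1 : HasDerivAt (stepD k) 0 x := by
    refine (hasDerivAt_const x c).congr_of_eventuallyEq ?_
    filter_upwards [hU.mem_nhds hx] with y hy using h y hy
  exact (stepD_hasDerivAt k x).unique h1

theorem stepD_eq_zero_of_open {U : Set ℝ} (hU : IsOpen U) (c : ℝ)
    (h : ∀ x ∈ U, smoothTransition x = c) (k : ℕ) : ∀ x ∈ U, stepD (k + 1) x = 0 := by
  induction k with
  | zero => exact stepD_succ_eq_zero_of_const hU 0 c (by simpa [stepD_zero] using h)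
  | succ k ih => exact stepD_succ_eq_zero_of_const hU (k + 1) 0 ih

end T2

open T2 in
/-- all derivatives of positive order vanish outside `(0,1)` -/
theorem stepD_eq_zero (k : ℕ) (hk : 1 ≤ k) (x : ℝ) (hx : x ≤ 0 ∨ 1 ≤ x) : stepD k x = 0 := by
  obtain ⟨k, rfl⟩ : ∃ j, k = j + 1 := ⟨k - 1, by omega⟩
  have hclosed : IsClosed {y | stepD (k + 1) y = 0} :=
    isClosed_eq (stepD_continuous _) continuous_const
  rcases hx with hx | hx
  · have h1 : Set.Iio (0 : ℝ) ⊆ {y | stepD (k + 1) y = 0} := fun y hy =>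
      stepD_eq_zero_of_open isOpen_Iio 0
        (fun z hz => Real.smoothTransition.zero_of_nonpos (le_of_lt hz)) k y hy
    have h2 := closure_minimal h1 hclosed
    rw [closure_Iio] at h2
    exact h2 hx
  · have h1 : Set.Ioi (1 : ℝ) ⊆ {y | stepD (k + 1) y = 0} := fun y hy =>
      stepD_eq_zero_of_open isOpen_Ioi 1
        (fun z hz => Real.smoothTransition.one_of_one_le (le_of_lt hz)) k y hy
    have h2 := closure_minimal h1 hclosed
    rw [closure_Ioi] at h2
    exact h2 hx

namespace T2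

open Real Set

noncomputable def mon (a b c : ℕ) (x : ℝ) : ℝ :=
  (x⁻¹) ^ a * ((1 - x)⁻¹) ^ b * (smoothTransition x) ^ c *
    (smoothTransition x * (1 - smoothTransition x))

theorem hasDerivAt_glue (x : ℝ) :
    HasDerivAt expNegInvGlue ((x⁻¹) ^ 2 * expNegInvGlue x) x := by
  have := expNegInvGlue.hasDerivAt_polynomial_eval_inv_mul 1 x
  simpa using this

theorem hasDerivAt_glue' (x : ℝ) :
    HasDerivAt (fun y => expNegInvGlue (1 - y)) (-(((1 - x)⁻¹) ^ 2 * expNegInvGlue (1 - x))) x := by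
  have h1 : HasDerivAt (fun y : ℝ => 1 - y) (-1) x := by
    simpa using (hasDerivAt_id x).const_sub 1
  have := HasDerivAt.comp x (hasDerivAt_glue (1 - x)) h1
  exact this.congr_deriv (by ring)

theorem hasDerivAt_step (x : ℝ) :
    HasDerivAt smoothTransition
      (((x⁻¹) ^ 2 + ((1 - x)⁻¹) ^ 2) * (smoothTransition x * (1 - smoothTransition x))) x := by
  have hD := smoothTransition.pos_denom x
  have h := (hasDerivAt_glue x).div ((hasDerivAt_glue x).add (hasDerivAt_glue' x)) hD.ne'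
  refine HasDerivAt.congr_deriv (f := smoothTransition) h ?_
  simp only [smoothTransition, Pi.add_apply]
  generalize expNegInvGlue x = e at *
  generalize expNegInvGlue (1 - x) = e' at *
  generalize x⁻¹ = p
  generalize (1 - x)⁻¹ = q
  field_simp
  ring
theorem glue_bound (a : ℕ) {x : ℝ} (hx : 0 < x) : (x⁻¹) ^ a * expNegInvGlue x ≤ a.factorial := by
  have h1 := Real.pow_div_factorial_le_exp (x⁻¹) (inv_nonneg.2 hx.le) a
  have h2 : expNegInvGlue x = (exp (x⁻¹))⁻¹ := by
    simp [expNegInvGlue, hx.not_ge, exp_neg]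
  rw [h2]
  have hf : (0 : ℝ) < a.factorial := by exact_mod_cast a.factorial_pos
  rw [div_le_iff₀ hf] at h1
  rw [← div_eq_mul_inv, div_le_iff₀ (exp_pos _)]
  linarith

theorem denom_lower (x : ℝ) : exp (-2) ≤ expNegInvGlue x + expNegInvGlue (1 - x) := by
  have h2 : expNegInvGlue (1 / 2) = exp (-2) := by
    simp [expNegInvGlue]
  rcases le_total (1 / 2) x with h | h
  · have := expNegInvGlue.monotone h
    have := expNegInvGlue.nonneg (1 - x)
    linarith
  · have := expNegInvGlue.monotone (show (1 / 2 : ℝ) ≤ 1 - x by linarith)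
    have := expNegInvGlue.nonneg x
    linarith

theorem exp_four_le : exp 4 ≤ 64 := by
  have h1 : exp 1 < 2.7182818286 := Real.exp_one_lt_d9
  have h2 : exp 4 = (exp 1) ^ 4 := by
    rw [← Real.exp_nat_mul]; norm_num
  rw [h2]
  have h3 : (exp 1) ^ 4 ≤ (2.7182818286 : ℝ) ^ 4 := by
    gcongr
  refine h3.trans (by norm_num)

theorem mon_bound (a b c : ℕ) {x : ℝ} (hx : x ∈ Ioo (0 : ℝ) 1) :
    |mon a b c x| ≤ 64 * (a.factorial * b.factorial) := by
  obtain ⟨h0, h1⟩ := hx
  have hD := smoothTransition.pos_denom x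
  set e := expNegInvGlue x with he
  set e' := expNegInvGlue (1 - x) with he'
  have hs : smoothTransition x = e / (e + e') := rfl
  have hw : smoothTransition x * (1 - smoothTransition x) = e * e' / (e + e') ^ 2 := by
    rw [hs]; field_simp; ring
  have hs0 := smoothTransition.nonneg x
  have hs1 := smoothTransition.le_one x
  have hsc : (smoothTransition x) ^ c ≤ 1 := pow_le_one₀ hs0 hs1
  have hsc0 : 0 ≤ (smoothTransition x) ^ c := pow_nonneg hs0 c
  have ha := glue_bound a h0
  have hb := glue_bound b (show 0 < 1 - x by linarith)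
  have hpa : 0 ≤ (x⁻¹) ^ a * e := mul_nonneg (pow_nonneg (inv_nonneg.2 h0.le) _) (expNegInvGlue.nonneg _)
  have hqb : 0 ≤ ((1 - x)⁻¹) ^ b * e' :=
    mul_nonneg (pow_nonneg (inv_nonneg.2 (by linarith)) _) (expNegInvGlue.nonneg _)
  have hDl := denom_lower x
  have hinv : 1 / (e + e') ^ 2 ≤ 64 := by
    have h4 : exp (-2) ^ 2 ≤ (e + e') ^ 2 := by
      gcongr
    have h5 : exp (-2) ^ 2 = (exp 4)⁻¹ := by
      rw [← Real.exp_nat_mul, ← Real.exp_neg]; norm_num
    have h6 : (0 : ℝ) < exp (-2) ^ 2 := by positivity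
    calc 1 / (e + e') ^ 2 ≤ 1 / exp (-2) ^ 2 := one_div_le_one_div_of_le h6 h4
      _ = exp 4 := by rw [h5]; simp
      _ ≤ 64 := exp_four_le
  have hinv0 : 0 ≤ 1 / (e + e') ^ 2 := by positivity
  have key : mon a b c x = ((x⁻¹) ^ a * e) * (((1 - x)⁻¹) ^ b * e') * (smoothTransition x) ^ c *
      (1 / (e + e') ^ 2) := by
    unfold mon
    rw [hw]; ring
  rw [key, abs_of_nonneg (by positivity)]
  have hfa : (0 : ℝ) ≤ a.factorial := by positivity
  have hfb : (0 : ℝ) ≤ b.factorial := by positivity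
  calc ((x⁻¹) ^ a * e) * (((1 - x)⁻¹) ^ b * e') * (smoothTransition x) ^ c * (1 / (e + e') ^ 2)
      ≤ (a.factorial * b.factorial) * 1 * 64 := by
        gcongr
    _ = 64 * (a.factorial * b.factorial) := by ring

theorem hasDerivAt_mon (a b c : ℕ) {x : ℝ} (hx : x ∈ Ioo (0 : ℝ) 1) :
    HasDerivAt (mon a b c)
      (-(a : ℝ) * mon (a + 1) b c x + (b : ℝ) * mon a (b + 1) c x
        + ((c : ℝ) + 1) * mon (a + 2) b c x + (-((c : ℝ) + 2)) * mon (a + 2) b (c + 1) x
        + ((c : ℝ) + 1) * mon a (b + 2) c x + (-((c : ℝ) + 2)) * mon a (b + 2) (c + 1) x) x := by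
  obtain ⟨h0, h1⟩ := hx
  have hx0 : x ≠ 0 := h0.ne'
  have hx1 : (1 - x) ≠ 0 := by linarith
  have hp : HasDerivAt (fun y : ℝ => y⁻¹) (-(x⁻¹) ^ 2) x := by
    have := hasDerivAt_inv hx0
    exact this.congr_deriv (by field_simp)
  have hq : HasDerivAt (fun y : ℝ => (1 - y)⁻¹) (((1 - x)⁻¹) ^ 2) x := by
    have h1 : HasDerivAt (fun y : ℝ => 1 - y) (-1) x := by
      simpa using (hasDerivAt_id x).const_sub 1
    have := HasDerivAt.comp x (hasDerivAt_inv hx1) h1
    exact this.congr_deriv (by field_simp)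
  have hs := hasDerivAt_step x
  have hpa := hp.pow a
  have hqb := hq.pow b
  have hsc := hs.pow c
  have hw := hs.mul (hs.const_sub 1)
  have h := ((hpa.mul hqb).mul hsc).mul hw
  refine HasDerivAt.congr_deriv (f := mon a b c) h ?_
  simp only [mon, Pi.pow_apply, Pi.mul_apply]
  generalize smoothTransition x = s
  generalize x⁻¹ = p
  generalize (1 - x)⁻¹ = q
  rcases a with _ | a <;> rcases b with _ | b <;> rcases c with _ | c <;>
    simp only [Nat.cast_zero, Nat.cast_succ, Nat.add_sub_cancel, pow_zero, zero_add] <;> ring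
/-- `Rep A C N f`: `f` is a real combination, of total weight `≤ N`, of monomials `mon a b c`
with `a + b ≤ A`, `c ≤ C`. -/
inductive Rep (A C : ℕ) : ℝ → (ℝ → ℝ) → Prop
  | mono (r : ℝ) (a b c : ℕ) (hab : a + b ≤ A) (hc : c ≤ C) :
      Rep A C |r| (fun x => r * mon a b c x)
  | add (N M : ℝ) (f g : ℝ → ℝ) :
      Rep A C N f → Rep A C M g → Rep A C (N + M) (fun x => f x + g x)
  | weaken (N M : ℝ) (f : ℝ → ℝ) : Rep A C N f → N ≤ M → Rep A C M f

theorem Rep.bound {A C : ℕ} {N : ℝ} {f : ℝ → ℝ} (h : Rep A C N f) :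
    ∀ x ∈ Ioo (0 : ℝ) 1, |f x| ≤ 64 * A.factorial * N := by
  induction h with
  | mono r a b c hab hc =>
    intro x hx
    have h1 := mon_bound a b c hx
    have h2 : (a.factorial * b.factorial : ℝ) ≤ A.factorial := by
      have h3 : a.factorial * b.factorial ≤ (a + b).factorial := Nat.le_of_dvd (Nat.factorial_pos _) (Nat.factorial_mul_factorial_dvd_factorial_add a b)
      have h4 : (a + b).factorial ≤ A.factorial := Nat.factorial_le hab
      exact_mod_cast h3.trans h4
    rw [abs_mul]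
    calc |r| * |mon a b c x| ≤ |r| * (64 * A.factorial) := by
          gcongr
          linarith
      _ = 64 * A.factorial * |r| := by ring
  | add N M f g _ _ ihf ihg =>
    intro x hx
    calc |f x + g x| ≤ |f x| + |g x| := abs_add_le _ _
      _ ≤ 64 * A.factorial * N + 64 * A.factorial * M := add_le_add (ihf x hx) (ihg x hx)
      _ = 64 * A.factorial * (N + M) := by ring
  | weaken N M f _ hNM ih =>
    intro x hx
    refine (ih x hx).trans ?_
    gcongr

theorem Rep.deriv {A C : ℕ} {N : ℝ} {f : ℝ → ℝ} (h : Rep A C N f) :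
    ∃ f' : ℝ → ℝ, Rep (A + 2) (C + 1) (((A : ℝ) + 4 * C + 6) * N) f' ∧
      ∀ x ∈ Ioo (0 : ℝ) 1, HasDerivAt f (f' x) x := by
  induction h with
  | mono r a b c hab hc =>
    refine ⟨fun x => (r * -(a : ℝ)) * mon (a + 1) b c x + (r * (b : ℝ)) * mon a (b + 1) c x
        + (r * ((c : ℝ) + 1)) * mon (a + 2) b c x + (r * (-((c : ℝ) + 2))) * mon (a + 2) b (c + 1) x
        + (r * ((c : ℝ) + 1)) * mon a (b + 2) c x + (r * (-((c : ℝ) + 2))) * mon a (b + 2) (c + 1) x,
        ?_, ?_⟩
    · have hR := Rep.add _ _ _ _ (Rep.add _ _ _ _ (Rep.add _ _ _ _ (Rep.add _ _ _ _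
        (Rep.add _ _ _ _
        (Rep.mono (A := A + 2) (C := C + 1) (r * -(a : ℝ)) (a + 1) b c (by omega) (by omega))
        (Rep.mono (A := A + 2) (C := C + 1) (r * (b : ℝ)) a (b + 1) c (by omega) (by omega)))
        (Rep.mono (A := A + 2) (C := C + 1) (r * ((c : ℝ) + 1)) (a + 2) b c (by omega) (by omega)))
        (Rep.mono (A := A + 2) (C := C + 1) (r * (-((c : ℝ) + 2))) (a + 2) b (c + 1) (by omega) (by omega)))
        (Rep.mono (A := A + 2) (C := C + 1) (r * ((c : ℝ) + 1)) a (b + 2) c (by omega) (by omega)))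
        (Rep.mono (A := A + 2) (C := C + 1) (r * (-((c : ℝ) + 2))) a (b + 2) (c + 1) (by omega) (by omega))
      refine Rep.weaken _ _ _ hR ?_
      have ha : (0 : ℝ) ≤ a := Nat.cast_nonneg a
      have hb : (0 : ℝ) ≤ b := Nat.cast_nonneg b
      have hc0 : (0 : ℝ) ≤ c := Nat.cast_nonneg c
      have hab' : (a : ℝ) + b ≤ A := by exact_mod_cast hab
      have hc' : (c : ℝ) ≤ C := by exact_mod_cast hc
      simp only [abs_mul, abs_neg]
      rw [abs_of_nonneg ha, abs_of_nonneg hb, abs_of_nonneg (by linarith : (0 : ℝ) ≤ (c : ℝ) + 1),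
        abs_of_nonneg (by linarith : (0 : ℝ) ≤ (c : ℝ) + 2)]
      have : |r| * a + |r| * b + |r| * (c + 1) + |r| * (c + 2) + |r| * (c + 1) + |r| * (c + 2)
          = ((a : ℝ) + b + 4 * c + 6) * |r| := by ring
      rw [this]
      gcongr
    · intro x hx
      have := (hasDerivAt_mon a b c hx).const_mul r
      exact this.congr_deriv (by ring)
  | add N M f g _ _ ihf ihg =>
    obtain ⟨f', hf', hf⟩ := ihf
    obtain ⟨g', hg', hg⟩ := ihg
    refine ⟨fun x => f' x + g' x, ?_, fun x hx => (hf x hx).add (hg x hx)⟩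
    have := Rep.add _ _ _ _ hf' hg'
    refine Rep.weaken _ _ _ this (le_of_eq (by ring))
  | weaken N M f _ hNM ih =>
    obtain ⟨f', hf', hf⟩ := ih
    refine ⟨f', Rep.weaken _ _ _ hf' ?_, hf⟩
    gcongr

/-- weights -/
def W : ℕ → ℕ
  | 0 => 1
  | k + 1 => (6 * k + 6) * W k

theorem rep_stepD (k : ℕ) : ∃ g : ℝ → ℝ, Rep (2 * (k + 1)) (k + 1) (W (k + 1)) g ∧
    ∀ x ∈ Ioo (0 : ℝ) 1, stepD (k + 1) x = g x := by
  induction k with
  | zero =>
    refine ⟨fun x => 1 * mon 2 0 0 x + 1 * mon 0 2 0 x, ?_, ?_⟩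
    · have := Rep.add _ _ _ _ (Rep.mono (A := 2) (C := 1) 1 2 0 0 (by omega) (by omega))
        (Rep.mono (A := 2) (C := 1) 1 0 2 0 (by omega) (by omega))
      refine Rep.weaken _ _ _ this ?_
      simp [W]; norm_num
    · intro x _
      have h1 := stepD_hasDerivAt 0 x
      rw [stepD_zero] at h1
      rw [h1.unique (hasDerivAt_step x)]
      simp [mon]; ring
  | succ k ih =>
    obtain ⟨g, hg, hgeq⟩ := ih
    obtain ⟨g', hg', hder⟩ := hg.deriv
    refine ⟨g', ?_, ?_⟩
    · have : Rep (2 * (k + 1 + 1)) (k + 1 + 1) (((2 * (k + 1) : ℕ) + 4 * ((k + 1 : ℕ) : ℝ) + 6) * (W (k + 1))) g' := hg'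
      refine Rep.weaken _ _ _ this ?_
      have : W (k + 1 + 1) = (6 * (k + 1) + 6) * W (k + 1) := rfl
      rw [this]
      push_cast
      apply le_of_eq
      ring
    · intro x hx
      have h1 := stepD_hasDerivAt (k + 1) x
      have h2 : HasDerivAt (stepD (k + 1)) (g' x) x := by
        refine (hder x hx).congr_of_eventuallyEq ?_
        filter_upwards [isOpen_Ioo.mem_nhds hx] with y hy using hgeq y hy
      exact h1.unique h2

/-- the bound -/
def B : ℕ → ℕ := fun n => Nat.rec 64 (fun k b => ((2 * k + 2) * (2 * k + 1) * (6 * k + 6)) * b) n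

theorem B_eq (k : ℕ) : B k = 64 * (2 * k).factorial * W k := by
  induction k with
  | zero => simp [B, W]
  | succ k ih =>
    have h1 : B (k + 1) = ((2 * k + 2) * (2 * k + 1) * (6 * k + 6)) * B k := rfl
    have h2 : (2 * (k + 1)).factorial = (2 * k + 2) * ((2 * k + 1) * (2 * k).factorial) := by
      rw [show 2 * (k + 1) = (2 * k + 1) + 1 by ring, Nat.factorial_succ, Nat.factorial_succ]
    have h3 : W (k + 1) = (6 * k + 6) * W k := rfl
    rw [h1, ih, h2, h3]; ring

theorem B_primrec : Primrec B := by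
  unfold B
  refine Primrec.nat_rec₁ 64 ?_
  have hk : Primrec (fun p : ℕ × ℕ => p.1) := Primrec.fst
  have hb : Primrec (fun p : ℕ × ℕ => p.2) := Primrec.snd
  have c (n : ℕ) : Primrec (fun _ : ℕ × ℕ => n) := Primrec.const n
  have h1 : Primrec (fun p : ℕ × ℕ => 2 * p.1 + 2) :=
    Primrec.nat_add.comp (Primrec.nat_mul.comp (c 2) hk) (c 2)
  have h2 : Primrec (fun p : ℕ × ℕ => 2 * p.1 + 1) :=
    Primrec.nat_add.comp (Primrec.nat_mul.comp (c 2) hk) (c 1)
  have h3 : Primrec (fun p : ℕ × ℕ => 6 * p.1 + 6) :=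
    Primrec.nat_add.comp (Primrec.nat_mul.comp (c 6) hk) (c 6)
  exact Primrec.nat_mul.comp (Primrec.nat_mul.comp (Primrec.nat_mul.comp h1 h2) h3) hb

end T2

open T2 Real Set in
/-- a computable bound for all derivatives -/
theorem stepD_bound : ∃ B : ℕ → ℕ, Computable B ∧ ∀ k x, |stepD k x| ≤ (B k : ℝ) := by
  refine ⟨T2.B, B_primrec.to_comp, ?_⟩
  intro k x
  rcases k with _ | k
  · rw [stepD_zero, abs_of_nonneg (smoothTransition.nonneg x)]
    refine (smoothTransition.le_one x).trans ?_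
    simp [T2.B]
  · by_cases hx : x ∈ Ioo (0 : ℝ) 1
    · obtain ⟨g, hg, hgeq⟩ := rep_stepD k
      rw [hgeq x hx, B_eq]
      have := hg.bound x hx
      push_cast
      exact this
    · have hx' : x ≤ 0 ∨ 1 ≤ x := by
        simp only [mem_Ioo, not_and_or, not_lt] at hx
        exact hx
      rw [stepD_eq_zero (k + 1) (by omega) x hx']
      simp

end Crest.Agent.S0170Aux
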