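import Mathlib
import Crest.Agent.S0170Aux.Defs
import Crest.Agent.S0170Aux.StepBound
import Crest.Agent.S0170Aux.StepApprox
import Crest.Agent.S0170Aux.FinDiff
import Crest.Agent.S0170Aux.Eff1
import Crest.Agent.S0170Aux.SFamTensor
import Crest.Agent.S0170Aux.SFamBasic

/-! # S0170 auxiliary T8: the primitive field (cut-off shear/translation)

Construction: `s = stepD` family (`Eff1 stepD` from T2+T3+T4).
* time: `σ_k t = a^k * stepD k (a t + b)`, `a = 1/(τ1-τ0)`, `b = -τ0/(τ1-τ0)`; `F 0 k = σ_(k+1)`.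
* plateau in coordinate `j`: `χ_k y = δ⁻¹^k (stepD k ((y - (c j - w j - δ))/δ) - stepD k ((y - (c j + w j))/δ))`
  (`= 1` on `[c j - w j, c j + w j]`, `= 0` off `(c j - w j - δ, c j + w j + δ)`, higher `χ_k` vanish on both).
* `F (j1+1) = χ^{j1}`, `F (j3+1) = χ^{j3}`, `F (j2+1) = α • lin + (μ/2) • quad`, `lin = mul_lin m χ^{j2}`,
  `quad = mul_lin m lin`.
* `U p j = if j = j1 then tensor F (single j2.succ 1) [] p else if j = j2 then - tensor F (single j1.succ 1) [] p else 0`.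
* curve for the first `Moves`: `γ t = x + (σ_0 t * (α + μ (x j2 - m))) • e_{j1}`; second: constant. -/

set_option autoImplicit false
open scoped ContDiff
open Crest.AnalysisR.BoxFlow

namespace Crest.Agent.S0170Aux

theorem eff1_stepD : Eff1 stepD :=
  eff1_of_approx0 stepD stepD_hasDerivAt stepD_bound (by rw [stepD_zero]; exact step_approx0)

namespace Prim

/-- affinely reparametrised step family -/
noncomputable def aff (a b : ℚ) (k : ℕ) (x : ℝ) : ℝ :=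
  (a : ℝ) ^ k * stepD k ((a : ℝ) * x + (b : ℝ))

theorem eff1_aff (a b : ℚ) : Eff1 (aff a b) := eff1_stepD.comp_affine a b

theorem aff_of_nonpos (a b : ℚ) (k : ℕ) (x : ℝ) (h : (a : ℝ) * x + (b : ℝ) ≤ 0) :
    aff a b k x = 0 := by
  unfold aff
  rcases Nat.eq_zero_or_pos k with rfl | hk
  · rw [stepD_zero, Real.smoothTransition.zero_of_nonpos h]; simp
  · rw [stepD_eq_zero k hk _ (Or.inl h)]; simp

theorem aff_zero_of_one_le (a b : ℚ) (x : ℝ) (h : 1 ≤ (a : ℝ) * x + (b : ℝ)) :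
    aff a b 0 x = 1 := by
  unfold aff
  rw [stepD_zero, Real.smoothTransition.one_of_one_le h]; simp

theorem aff_succ_of_one_le (a b : ℚ) (k : ℕ) (x : ℝ) (h : 1 ≤ (a : ℝ) * x + (b : ℝ)) :
    aff a b (k + 1) x = 0 := by
  unfold aff
  rw [stepD_eq_zero (k + 1) (Nat.succ_pos k) _ (Or.inr h)]; simp

theorem aff_zero_mem (a b : ℚ) (x : ℝ) : aff a b 0 x ∈ Set.Icc (0 : ℝ) 1 := by
  unfold aff
  rw [stepD_zero]
  simp [Real.smoothTransition.nonneg, Real.smoothTransition.le_one]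

/-- plateau family: `1` on `[c - w, c + w]`, `0` outside `(c - w - δ, c + w + δ)`. -/
noncomputable def chi (c w δ : ℚ) (k : ℕ) (x : ℝ) : ℝ :=
  aff δ⁻¹ (-(c - w - δ) / δ) k x - aff δ⁻¹ (-(c + w) / δ) k x

theorem eff1_chi (c w δ : ℚ) : Eff1 (chi c w δ) := (eff1_aff _ _).sub (eff1_aff _ _)

theorem arg1 (c w δ : ℚ) (hδ : 0 < δ) (x : ℝ) :
    ((δ⁻¹ : ℚ) : ℝ) * x + ((-(c - w - δ) / δ : ℚ) : ℝ) = (x - ((c : ℝ) - w - δ)) / δ := by
  have : (δ : ℝ) ≠ 0 := by exact_mod_cast hδ.ne'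
  push_cast
  field_simp
  ring

theorem arg2 (c w δ : ℚ) (hδ : 0 < δ) (x : ℝ) :
    ((δ⁻¹ : ℚ) : ℝ) * x + ((-(c + w) / δ : ℚ) : ℝ) = (x - ((c : ℝ) + w)) / δ := by
  have : (δ : ℝ) ≠ 0 := by exact_mod_cast hδ.ne'
  push_cast
  field_simp
  ring

theorem chi_outside (c w δ : ℚ) (hw : 0 < w) (hδ : 0 < δ) (k : ℕ) (x : ℝ)
    (h : (w : ℝ) + δ ≤ |x - c|) : chi c w δ k x = 0 := by
  have hδ' : (0 : ℝ) < δ := by exact_mod_cast hδ
  have hw' : (0 : ℝ) < w := by exact_mod_cast hw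
  unfold chi
  rcases le_abs'.1 h with h | h
  · -- x ≤ c - w - δ
    rw [aff_of_nonpos, aff_of_nonpos, sub_zero]
    · rw [arg2 c w δ hδ]
      apply div_nonpos_of_nonpos_of_nonneg _ hδ'.le
      linarith
    · rw [arg1 c w δ hδ]
      apply div_nonpos_of_nonpos_of_nonneg _ hδ'.le
      linarith
  · have h1 : 1 ≤ ((δ⁻¹ : ℚ) : ℝ) * x + ((-(c - w - δ) / δ : ℚ) : ℝ) := by
      rw [arg1 c w δ hδ, le_div_iff₀ hδ']; linarith
    have h2 : 1 ≤ ((δ⁻¹ : ℚ) : ℝ) * x + ((-(c + w) / δ : ℚ) : ℝ) := by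
      rw [arg2 c w δ hδ, le_div_iff₀ hδ']; linarith
    rcases k with _ | k
    · rw [aff_zero_of_one_le _ _ _ h1, aff_zero_of_one_le _ _ _ h2, sub_self]
    · rw [aff_succ_of_one_le _ _ _ _ h1, aff_succ_of_one_le _ _ _ _ h2, sub_self]

theorem chi_zero_inside (c w δ : ℚ) (hδ : 0 < δ) (x : ℝ)
    (h : |x - c| ≤ (w : ℝ)) : chi c w δ 0 x = 1 := by
  have hδ' : (0 : ℝ) < δ := by exact_mod_cast hδ
  obtain ⟨h1, h2⟩ := abs_le.1 h
  unfold chi
  rw [aff_zero_of_one_le, aff_of_nonpos, sub_zero]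
  · rw [arg2 c w δ hδ]
    apply div_nonpos_of_nonpos_of_nonneg _ hδ'.le
    linarith
  · rw [arg1 c w δ hδ, le_div_iff₀ hδ']; linarith

theorem chi_succ_inside (c w δ : ℚ) (hδ : 0 < δ) (k : ℕ) (x : ℝ)
    (h : |x - c| ≤ (w : ℝ)) : chi c w δ (k + 1) x = 0 := by
  have hδ' : (0 : ℝ) < δ := by exact_mod_cast hδ
  obtain ⟨h1, h2⟩ := abs_le.1 h
  unfold chi
  rw [aff_succ_of_one_le, aff_of_nonpos, sub_zero]
  · rw [arg2 c w δ hδ]
    apply div_nonpos_of_nonpos_of_nonneg _ hδ'.le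
    linarith
  · rw [arg1 c w δ hδ, le_div_iff₀ hδ']; linarith

/-- multiplication of a family by `x - m` -/
noncomputable def mulLin (m : ℚ) (f : ℕ → ℝ → ℝ) (k : ℕ) (x : ℝ) : ℝ :=
  (x - (m : ℝ)) * f k x + (k : ℝ) * f (k - 1) x

theorem mulLin_eq_zero (m : ℚ) (f : ℕ → ℝ → ℝ) (x : ℝ) (h : ∀ k, f k x = 0) (k : ℕ) :
    mulLin m f k x = 0 := by
  simp [mulLin, h]

theorem eff1_mulLin (m : ℚ) {f : ℕ → ℝ → ℝ} (hf : Eff1 f) (R : ℕ)
    (hsupp : ∀ k x, (R : ℝ) < |x| → f k x = 0) : Eff1 (mulLin m f) :=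
  hf.mul_lin m R hsupp

/-- the polynomial-times-plateau family `(α (x-m) + (μ/2) (x-m)^2) χ` -/
noncomputable def pfam (α μ m : ℚ) (f : ℕ → ℝ → ℝ) (k : ℕ) (x : ℝ) : ℝ :=
  (α : ℝ) * mulLin m f k x + ((μ / 2 : ℚ) : ℝ) * mulLin m (mulLin m f) k x

theorem pfam_eq_zero (α μ m : ℚ) (f : ℕ → ℝ → ℝ) (x : ℝ) (h : ∀ k, f k x = 0) (k : ℕ) :
    pfam α μ m f k x = 0 := by
  simp [pfam, mulLin_eq_zero m f x h, mulLin_eq_zero m (mulLin m f) x (mulLin_eq_zero m f x h)]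

theorem eff1_pfam (α μ m : ℚ) {f : ℕ → ℝ → ℝ} (hf : Eff1 f) (R : ℕ)
    (hsupp : ∀ k x, (R : ℝ) < |x| → f k x = 0) : Eff1 (pfam α μ m f) :=
  ((eff1_mulLin m hf R hsupp).const_mul α).add
    ((eff1_mulLin m (eff1_mulLin m hf R hsupp) R
      (fun k x hx => mulLin_eq_zero m f x (fun k => hsupp k x hx) k)).const_mul (μ / 2))

theorem pfam_one (α μ m : ℚ) (f : ℕ → ℝ → ℝ) (x : ℝ) (h0 : f 0 x = 1) (h1 : f 1 x = 0) :
    pfam α μ m f 1 x = (α : ℝ) + (μ : ℝ) * (x - (m : ℝ)) := by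
  simp only [pfam, mulLin, h0, h1]
  push_cast
  ring

theorem chi_supp (c w δ : ℚ) (hw : 0 < w) (hδ : 0 < δ) :
    ∃ R : ℕ, ∀ k x, (R : ℝ) < |x| → chi c w δ k x = 0 := by
  obtain ⟨R, hR⟩ := exists_nat_ge (|(c : ℝ)| + w + δ)
  refine ⟨R, fun k x hx => chi_outside c w δ hw hδ k x ?_⟩
  have := abs_sub_abs_le_abs_sub x (c : ℝ)
  linarith


/-! ### the tensor product as a product over the space coordinates -/

theorem tensor_eq (F : Fin 4 → ℕ → ℝ → ℝ) (κ : Fin 4 → ℕ) (ds : List (Fin 4)) (p : ST) :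
    tensor F κ ds p = F 0 (κ 0 + ds.count 0) p.1 *
      ∏ j : Fin 3, F j.succ (κ j.succ + ds.count j.succ) (p.2 j) := by
  simp only [tensor, Fin.prod_univ_three, mul_assoc]
  rfl

theorem tensor_eq_zero_of_time (F : Fin 4 → ℕ → ℝ → ℝ) (κ : Fin 4 → ℕ) (ds : List (Fin 4)) (p : ST)
    (h : ∀ k, F 0 k p.1 = 0) : tensor F κ ds p = 0 := by
  rw [tensor_eq, h, zero_mul]

theorem tensor_eq_zero_of_space (F : Fin 4 → ℕ → ℝ → ℝ) (κ : Fin 4 → ℕ) (ds : List (Fin 4)) (p : ST)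
    (j : Fin 3) (h : ∀ k, F j.succ k (p.2 j) = 0) : tensor F κ ds p = 0 := by
  rw [tensor_eq, Finset.prod_eq_zero (Finset.mem_univ j) (h _), mul_zero]

theorem contDiff_tensor (F : Fin 4 → ℕ → ℝ → ℝ) (hF : ∀ d, Eff1 (F d)) (κ : Fin 4 → ℕ)
    (ds : List (Fin 4)) : ContDiff ℝ ∞ (tensor F κ ds) := by
  have : tensor F κ ds = fun p : ST => F 0 (κ 0 + ds.count 0) p.1 *
      ∏ j : Fin 3, F j.succ (κ j.succ + ds.count j.succ) (p.2 j) := by
    funext p; exact tensor_eq F κ ds p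
  rw [this]
  refine ContDiff.mul (((hF 0).contDiff _).comp contDiff_fst) ?_
  refine contDiff_prod fun j _ => ?_
  exact ((hF j.succ).contDiff _).comp ((contDiff_apply ℝ ℝ j).comp contDiff_snd)

/-- the velocity field associated with the stream function `tensor F` in the plane `(j1, j2)`. -/
noncomputable def fieldG (F : Fin 4 → ℕ → ℝ → ℝ) (j1 j2 : Fin 3) (j : Fin 3) :
    List (Fin 4) → ST → ℝ :=
  if j = j1 then tensor F (Pi.single j2.succ 1)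
  else if j = j2 then fun ds p => - tensor F (Pi.single j1.succ 1) ds p
  else fun _ _ => 0

noncomputable def field (F : Fin 4 → ℕ → ℝ → ℝ) (j1 j2 : Fin 3) : Field :=
  fun p j => fieldG F j1 j2 j [] p

theorem sfam_fieldG (F : Fin 4 → ℕ → ℝ → ℝ) (hF : ∀ d, Eff1 (F d)) (j1 j2 j : Fin 3) :
    SFam (fieldG F j1 j2 j) := by
  unfold fieldG
  split_ifs
  · exact SFam.tensor F hF _
  · exact (SFam.tensor F hF _).neg
  · exact SFam.zero

theorem contDiff_field (F : Fin 4 → ℕ → ℝ → ℝ) (hF : ∀ d, Eff1 (F d)) (j1 j2 : Fin 3) :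
    ContDiff ℝ ∞ (field F j1 j2) := by
  rw [contDiff_pi]
  intro j
  unfold field fieldG
  split_ifs
  · exact contDiff_tensor F hF _ _
  · exact (contDiff_tensor F hF _ _).neg
  · exact contDiff_const

theorem field_eq_zero_of_time (F : Fin 4 → ℕ → ℝ → ℝ) (j1 j2 : Fin 3) (p : ST)
    (h : ∀ k, F 0 k p.1 = 0) : field F j1 j2 p = 0 := by
  funext j
  simp only [field, fieldG]
  split_ifs
  · exact tensor_eq_zero_of_time F _ _ p h
  · simp [tensor_eq_zero_of_time F _ _ p h]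
  · rfl

theorem field_eq_zero_of_space (F : Fin 4 → ℕ → ℝ → ℝ) (j1 j2 : Fin 3) (p : ST)
    (j : Fin 3) (h : ∀ k, F j.succ k (p.2 j) = 0) : field F j1 j2 p = 0 := by
  funext i
  simp only [field, fieldG]
  split_ifs
  · exact tensor_eq_zero_of_space F _ _ p j h
  · simp [tensor_eq_zero_of_space F _ _ p j h]
  · rfl

theorem spaceDiv_field (F : Fin 4 → ℕ → ℝ → ℝ) (hF : ∀ d, Eff1 (F d)) (j1 j2 : Fin 3)
    (hj : j1 ≠ j2) (p : ST) : spaceDiv (field F j1 j2) p = 0 := by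
  rw [spaceDiv_eq_of_sfam (field F j1 j2) (fieldG F j1 j2) (sfam_fieldG F hF j1 j2)
    (fun _ _ => rfl) p]
  have key : tensor F (Pi.single j2.succ 1) [j1.succ] p
      = tensor F (Pi.single j1.succ 1) [j2.succ] p := by
    have hκ : ∀ d : Fin 4, (Pi.single j2.succ 1 : Fin 4 → ℕ) d + [j1.succ].count d
        = (Pi.single j1.succ 1 : Fin 4 → ℕ) d + [j2.succ].count d := by
      intro d
      simp only [Pi.single_apply, List.count_singleton, beq_iff_eq]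
      by_cases h1 : d = j1.succ <;> by_cases h2 : d = j2.succ <;>
        simp [h1, h2, eq_comm, add_comm]
    simp only [tensor, hκ]
  have hsum : ∀ j : Fin 3, fieldG F j1 j2 j [j.succ] p
      = (if j = j1 then tensor F (Pi.single j2.succ 1) [j1.succ] p else 0)
        + (if j = j2 then - tensor F (Pi.single j1.succ 1) [j2.succ] p else 0) := by
    intro j
    unfold fieldG
    by_cases h1 : j = j1
    · subst h1; simp [hj]
    · by_cases h2 : j = j2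
      · subst h2; simp [h1]
      · simp [h1, h2]
  simp only [hsum, Finset.sum_add_distrib, Finset.sum_ite_eq', Finset.mem_univ, if_true]
  rw [key]; ring


/-! ### the concrete factors -/

/-- the four factor families -/
noncomputable def fac (τ0 τ1 : ℚ) (j2 : Fin 3) (α μ m : ℚ) (c w : Fin 3 → ℚ) (δ : ℚ) :
    Fin 4 → ℕ → ℝ → ℝ :=
  Fin.cases (fun k => aff (τ1 - τ0)⁻¹ (-τ0 / (τ1 - τ0)) (k + 1))
    (fun j => if j = j2 then pfam α μ m (chi (c j) (w j) δ) else chi (c j) (w j) δ)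

theorem eff1_fac (τ0 τ1 : ℚ) (j2 : Fin 3) (α μ m : ℚ) (c w : Fin 3 → ℚ) (hw : ∀ j, 0 < w j)
    (δ : ℚ) (hδ : 0 < δ) (d : Fin 4) : Eff1 (fac τ0 τ1 j2 α μ m c w δ d) := by
  refine Fin.cases ?_ (fun j => ?_) d
  · exact (eff1_aff _ _).shift
  · show Eff1 (if j = j2 then pfam α μ m (chi (c j) (w j) δ) else chi (c j) (w j) δ)
    split_ifs
    · obtain ⟨R, hR⟩ := chi_supp (c j) (w j) δ (hw j) hδ
      exact eff1_pfam α μ m (eff1_chi _ _ _) R hR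
    · exact eff1_chi _ _ _

theorem argt (τ0 τ1 : ℚ) (hτ : τ0 < τ1) (t : ℝ) :
    (((τ1 - τ0)⁻¹ : ℚ) : ℝ) * t + ((-τ0 / (τ1 - τ0) : ℚ) : ℝ) = (t - τ0) / ((τ1 : ℝ) - τ0) := by
  have : (τ1 : ℝ) - τ0 ≠ 0 := by
    have : (τ0 : ℝ) < τ1 := by exact_mod_cast hτ
    linarith
  push_cast
  field_simp
  ring

theorem argt_nonpos (τ0 τ1 : ℚ) (hτ : τ0 < τ1) (t : ℝ) (ht : t ≤ τ0) :
    (((τ1 - τ0)⁻¹ : ℚ) : ℝ) * t + ((-τ0 / (τ1 - τ0) : ℚ) : ℝ) ≤ 0 := by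
  have h : (τ0 : ℝ) < τ1 := by exact_mod_cast hτ
  rw [argt τ0 τ1 hτ]
  apply div_nonpos_of_nonpos_of_nonneg <;> linarith

theorem argt_one_le (τ0 τ1 : ℚ) (hτ : τ0 < τ1) (t : ℝ) (ht : (τ1 : ℝ) ≤ t) :
    1 ≤ (((τ1 - τ0)⁻¹ : ℚ) : ℝ) * t + ((-τ0 / (τ1 - τ0) : ℚ) : ℝ) := by
  have h : (τ0 : ℝ) < τ1 := by exact_mod_cast hτ
  rw [argt τ0 τ1 hτ, le_div_iff₀ (by linarith)]
  linarith

theorem fac_time (τ0 τ1 : ℚ) (hτ : τ0 < τ1) (j2 : Fin 3) (α μ m : ℚ) (c w : Fin 3 → ℚ) (δ : ℚ)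
    (t : ℝ) (ht : t ≤ τ0 ∨ (τ1 : ℝ) ≤ t) (k : ℕ) : fac τ0 τ1 j2 α μ m c w δ 0 k t = 0 := by
  show aff (τ1 - τ0)⁻¹ (-τ0 / (τ1 - τ0)) (k + 1) t = 0
  rcases ht with ht | ht
  · exact aff_of_nonpos _ _ _ _ (argt_nonpos τ0 τ1 hτ t ht)
  · exact aff_succ_of_one_le _ _ _ _ (argt_one_le τ0 τ1 hτ t ht)

theorem fac_space (τ0 τ1 : ℚ) (j2 : Fin 3) (α μ m : ℚ) (c w : Fin 3 → ℚ) (hw : ∀ j, 0 < w j)
    (δ : ℚ) (hδ : 0 < δ) (j : Fin 3) (y : ℝ) (hy : (w j : ℝ) + δ ≤ |y - c j|) (k : ℕ) :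
    fac τ0 τ1 j2 α μ m c w δ j.succ k y = 0 := by
  show (if j = j2 then pfam α μ m (chi (c j) (w j) δ) else chi (c j) (w j) δ) k y = 0
  split_ifs
  · exact pfam_eq_zero _ _ _ _ _ (fun k => chi_outside _ _ _ (hw j) hδ k y hy) k
  · exact chi_outside _ _ _ (hw j) hδ k y hy

theorem good_field (τ0 τ1 : ℚ) (hτ : τ0 < τ1) (j1 j2 : Fin 3) (hj : j1 ≠ j2) (α μ m : ℚ)
    (c w : Fin 3 → ℚ) (hw : ∀ j, 0 < w j) (δ : ℚ) (hδ : 0 < δ) :
    Good τ0 τ1 (field (fac τ0 τ1 j2 α μ m c w δ) j1 j2) := by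
  have hF := eff1_fac τ0 τ1 j2 α μ m c w hw δ hδ
  refine ⟨contDiff_field _ hF j1 j2, ?_, ⟨fieldG _ j1 j2, sfam_fieldG _ hF j1 j2, fun _ _ => rfl⟩,
    ?_, spaceDiv_field _ hF j1 j2 hj⟩
  · refine HasCompactSupport.intro
      (K := Set.Icc (τ0 : ℝ) τ1 ×ˢ Set.pi Set.univ
        (fun j : Fin 3 => Set.Icc ((c j : ℝ) - (w j + δ)) (c j + (w j + δ))))
      (isCompact_Icc.prod (isCompact_univ_pi fun j => isCompact_Icc)) ?_
    intro p hp
    by_cases h1 : p.1 ∈ Set.Icc (τ0 : ℝ) τ1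
    · have h2 : ¬ p.2 ∈ Set.pi Set.univ
          (fun j : Fin 3 => Set.Icc ((c j : ℝ) - (w j + δ)) (c j + (w j + δ))) :=
        fun h2 => hp ⟨h1, h2⟩
      simp only [Set.mem_pi, Set.mem_univ, true_implies, not_forall] at h2
      obtain ⟨j, hj'⟩ := h2
      refine field_eq_zero_of_space _ j1 j2 p j
        (fac_space τ0 τ1 j2 α μ m c w hw δ hδ j (p.2 j) ?_)
      by_contra hlt
      push Not at hlt
      obtain ⟨ha, hb⟩ := abs_lt.1 hlt
      exact hj' ⟨by linarith, by linarith⟩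
    · refine field_eq_zero_of_time _ j1 j2 p (fac_time τ0 τ1 hτ j2 α μ m c w δ p.1 ?_)
      by_contra hcon
      push Not at hcon
      exact h1 ⟨hcon.1.le, hcon.2.le⟩
  · intro p hp
    exact field_eq_zero_of_time _ j1 j2 p (fac_time τ0 τ1 hτ j2 α μ m c w δ p.1 hp)

/-- value of the field inside the box -/
theorem field_inside (τ0 τ1 : ℚ) (j1 j2 : Fin 3) (hj : j1 ≠ j2) (α μ m : ℚ)
    (c w : Fin 3 → ℚ) (δ : ℚ) (hδ : 0 < δ) (t : ℝ) (y : E3) (hy : y ∈ box c w) :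
    field (fac τ0 τ1 j2 α μ m c w δ) j1 j2 (t, y)
      = (aff (τ1 - τ0)⁻¹ (-τ0 / (τ1 - τ0)) 1 t * ((α : ℝ) + (μ : ℝ) * (y j2 - (m : ℝ)))) •
          (Pi.single j1 (1 : ℝ) : E3) := by
  have hy' : ∀ j, |y j - (c j : ℝ)| ≤ (w j : ℝ) := hy
  funext j
  simp only [field, fieldG]
  by_cases h1 : j = j1
  · subst h1
    simp only [if_true, tensor_eq, List.count_nil, add_zero, Pi.smul_apply, Pi.single_eq_same,
      smul_eq_mul, mul_one]
    have h0 : (Pi.single j2.succ 1 : Fin 4 → ℕ) 0 = 0 :=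
      Pi.single_eq_of_ne (Fin.succ_ne_zero j2).symm _
    rw [h0]
    have hprod : ∀ i : Fin 3, fac τ0 τ1 j2 α μ m c w δ i.succ
        ((Pi.single j2.succ 1 : Fin 4 → ℕ) i.succ) (y i)
        = if i = j2 then (α : ℝ) + (μ : ℝ) * (y j2 - (m : ℝ)) else 1 := by
      intro i
      show (if i = j2 then pfam α μ m (chi (c i) (w i) δ) else chi (c i) (w i) δ) _ (y i) = _
      by_cases hi : i = j2
      · subst hi
        simp only [if_true, Pi.single_eq_same]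
        exact pfam_one _ _ _ _ _ (chi_zero_inside _ _ _ hδ _ (hy' i))
          (chi_succ_inside _ _ _ hδ 0 _ (hy' i))
      · have : (Pi.single j2.succ 1 : Fin 4 → ℕ) i.succ = 0 :=
          Pi.single_eq_of_ne (fun h => hi (Fin.succ_injective _ h)) _
        simp only [if_neg hi, this]
        exact chi_zero_inside _ _ _ hδ _ (hy' i)
    simp only [hprod, Finset.prod_ite_eq', Finset.mem_univ, if_true]
    rfl
  · have hz : ((aff (τ1 - τ0)⁻¹ (-τ0 / (τ1 - τ0)) 1 t * ((α : ℝ) + (μ : ℝ) * (y j2 - (m : ℝ)))) •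
          (Pi.single j1 (1 : ℝ) : E3)) j = 0 := by
      simp [Pi.single_eq_of_ne h1]
    rw [hz, if_neg h1]
    split_ifs
    · rw [neg_eq_zero]
      rw [tensor_eq]
      rw [Finset.prod_eq_zero (Finset.mem_univ j1), mul_zero]
      show (if j1 = j2 then pfam α μ m (chi (c j1) (w j1) δ) else chi (c j1) (w j1) δ) _ (y j1) = 0
      rw [if_neg hj]
      simp only [Pi.single_eq_same, List.count_nil, add_zero]
      exact chi_succ_inside _ _ _ hδ 0 _ (hy' j1)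
    · rfl

end Prim

open Prim in
theorem exists_prim (τ0 τ1 : ℚ) (hτ : τ0 < τ1) (j1 j2 : Fin 3) (hj : j1 ≠ j2) (α μ m : ℚ)
    (c w : Fin 3 → ℚ) (hw : ∀ j, 0 < w j) (δ : ℚ) (hδ : 0 < δ) :
    ∃ U : Field, Good τ0 τ1 U ∧
      Moves U τ0 τ1
        {x | ∀ l ∈ Set.Icc (0 : ℝ) 1,
          x + (l * ((α : ℝ) + (μ : ℝ) * (x j2 - (m : ℝ)))) • (Pi.single j1 (1 : ℝ) : E3) ∈ box c w}
        (fun x => x + ((α : ℝ) + (μ : ℝ) * (x j2 - (m : ℝ))) • (Pi.single j1 (1 : ℝ) : E3)) ∧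
      Moves U τ0 τ1 {x | x ∉ box c (fun j => w j + δ)} id := by
  refine ⟨field (fac τ0 τ1 j2 α μ m c w δ) j1 j2, good_field τ0 τ1 hτ j1 j2 hj α μ m c w hw δ hδ,
    ?_, ?_⟩
  · intro x hx
    set a : ℚ := (τ1 - τ0)⁻¹ with ha
    set b : ℚ := -τ0 / (τ1 - τ0) with hb
    set K : ℝ := (α : ℝ) + (μ : ℝ) * (x j2 - (m : ℝ)) with hK
    refine ⟨fun t => x + (aff a b 0 t * K) • (Pi.single j1 (1 : ℝ) : E3), ?_, ?_, ?_⟩
    · intro t ht
      simp only [aff_of_nonpos a b 0 t (argt_nonpos τ0 τ1 hτ t ht), zero_mul, zero_smul, add_zero]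
    · intro t ht
      simp only [aff_zero_of_one_le a b t (argt_one_le τ0 τ1 hτ t ht), one_mul, hK]
    · intro t
      have hmem : x + (aff a b 0 t * K) • (Pi.single j1 (1 : ℝ) : E3) ∈ box c w :=
        hx _ (aff_zero_mem a b t)
      have hj2 : (x + (aff a b 0 t * K) • (Pi.single j1 (1 : ℝ) : E3)) j2 = x j2 := by
        simp [Pi.single_eq_of_ne hj.symm]
      rw [field_inside τ0 τ1 j1 j2 hj α μ m c w δ hδ t _ hmem, hj2]
      exact ((((eff1_aff a b).hasDeriv 0 t).mul_const K).smul_const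
        (Pi.single j1 (1 : ℝ) : E3)).const_add x
  · intro x hx
    refine ⟨fun _ => x, fun _ _ => rfl, fun _ _ => rfl, fun t => ?_⟩
    have hx' : ¬ ∀ j : Fin 3, |x j - (c j : ℝ)| ≤ ((w j + δ : ℚ) : ℝ) := hx
    push Not at hx'
    obtain ⟨j, hj'⟩ := hx'
    rw [field_eq_zero_of_space _ j1 j2 (t, x) j
      (fac_space τ0 τ1 j2 α μ m c w hw δ hδ j (x j) (by push_cast at hj'; exact hj'.le))]
    exact hasDerivAt_const t x

end Crest.Agent.S0170Aux
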