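import Mathlib
import Crest.Agent.S0170Aux.Defs
import Crest.Agent.S0170Aux.Basic
import Crest.Agent.S0170Aux.Prim

/-! # S0170 auxiliary T10: from `exists_prim` to realizability of legal moves and of shears in cells -/

set_option autoImplicit false
open Crest.AnalysisR.BoxFlow

namespace Crest.Agent.S0170Aux

/-- the general primitive for families: index `i0` is sheared inside the box `(c,w)`, the other sets
avoid the enlarged box. -/
theorem Realizable.prim {n : ℕ} (S : Fin n → Set E3) (i0 : Fin n) (j1 j2 : Fin 3) (hj : j1 ≠ j2)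
    (α μ m : ℚ) (c w : Fin 3 → ℚ) (hw : ∀ j, 0 < w j) (δ : ℚ) (hδ : 0 < δ)
    (h0 : ∀ x ∈ S i0, ∀ l ∈ Set.Icc (0 : ℝ) 1,
      x + (l * ((α : ℝ) + (μ : ℝ) * (x j2 - (m : ℝ)))) • (Pi.single j1 (1 : ℝ) : E3) ∈ box c w)
    (h1 : ∀ i, i ≠ i0 → ∀ x ∈ S i, x ∉ box c (fun j => w j + δ)) :
    Realizable S (Function.update (fun _ => id) i0
      (fun x => x + ((α : ℝ) + (μ : ℝ) * (x j2 - (m : ℝ))) • (Pi.single j1 (1 : ℝ) : E3))) := by
  intro τ0 τ1 hτ
  obtain ⟨U, hU, hm1, hm2⟩ := exists_prim τ0 τ1 hτ j1 j2 hj α μ m c w hw δ hδ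
  refine ⟨U, hU, fun i => ?_⟩
  by_cases hi : i = i0
  · subst hi
    rw [Function.update_self]
    intro x hx
    exact hm1 x (h0 x hx)
  · rw [Function.update_of_ne hi]
    intro x hx
    exact hm2 x (h1 i hi x hx)

namespace T10

/-- a common positive parameter for finitely many downward closed conditions -/
theorem exists_pos_forall {n : ℕ} (i0 : Fin n) (P : Fin n → ℚ → Prop)
    (hmono : ∀ i δ δ', δ' ≤ δ → P i δ → P i δ')
    (h : ∀ i, ∃ δ, 0 < δ ∧ P i δ) : ∃ δ, 0 < δ ∧ ∀ i, P i δ := by
  choose d hd hP using h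
  refine ⟨Finset.univ.inf' ⟨i0, Finset.mem_univ i0⟩ d, ?_, fun i => ?_⟩
  · rw [Finset.lt_inf'_iff]
    exact fun i _ => hd i
  · exact hmono i (d i) _ (Finset.inf'_le d (Finset.mem_univ i)) (hP i)

theorem succ_ne (j : Fin 3) : j ≠ j + 1 := by
  revert j; decide

theorem box_translate {c c' w : Fin 3 → ℚ} :
    Set.MapsTo (fun x : E3 => x + (ratPoint c' - ratPoint c)) (box c w) (box c' w) := by
  intro x hx j
  have := hx j
  simp only [Pi.add_apply, Pi.sub_apply, ratPoint]
  convert this using 2
  ring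

end T10

theorem realizable_of_step {n : ℕ} (w c c' : Fin n → Fin 3 → ℚ) (hw : ∀ i j, 0 < w i j)
    (h : Step w c c') :
    Realizable (fun i => box (c i) (w i)) (fun i x => x + (ratPoint (c' i) - ratPoint (c i))) := by
  obtain ⟨i0, j, v, rfl, hsep⟩ := h
  set C : Fin 3 → ℚ := Function.update (c i0) j ((c i0 j + v) / 2) with hC
  set W : Fin 3 → ℚ := Function.update (w i0) j (|v - c i0 j| / 2 + w i0 j) with hWdef
  have hCj : C j = (c i0 j + v) / 2 := by simp [hC]
  have hWj : W j = |v - c i0 j| / 2 + w i0 j := by simp [hWdef]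
  have hCne : ∀ j', j' ≠ j → C j' = c i0 j' := fun j' hj' => by simp [hC, hj']
  have hWne : ∀ j', j' ≠ j → W j' = w i0 j' := fun j' hj' => by simp [hWdef, hj']
  have hW : ∀ j', 0 < W j' := by
    intro j'
    by_cases hj' : j' = j
    · subst hj'
      rw [hWj]
      have := hw i0 j'
      positivity
    · rw [hWne j' hj']; exact hw i0 j'
  -- choice of δ
  obtain ⟨δ, hδ, hδP⟩ : ∃ δ : ℚ, 0 < δ ∧ ∀ i, i ≠ i0 → ∀ x ∈ box (c i) (w i),
      x ∉ box C (fun j => W j + δ) := by
    apply T10.exists_pos_forall i0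
      (fun i δ => i ≠ i0 → ∀ x ∈ box (c i) (w i), x ∉ box C (fun j => W j + δ))
    · intro i δ δ' hδδ' hP hi x hx hx'
      refine hP hi x hx (fun j' => (hx' j').trans ?_)
      have : (δ' : ℝ) ≤ δ := by exact_mod_cast hδδ'
      push_cast
      linarith
    · intro i
      by_cases hi : i = i0
      · exact ⟨1, one_pos, fun h => absurd hi h⟩
      rcases hsep i hi with ⟨j', hj', hs⟩ | hs | hs
      · unfold SepAt at hs
        refine ⟨(|c i0 j' - c i j'| - (w i0 j' + w i j')) / 2, by linarith, fun _ x hx hx' => ?_⟩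
        have h1 := hx j'
        have h2 := hx' j'
        simp only [hCne j' hj', hWne j' hj'] at h2
        have hs' : (w i0 j' : ℝ) + w i j' < |(c i0 j' : ℝ) - c i j'| := by exact_mod_cast hs
        push_cast at h2
        have h3 : |(c i0 j' : ℝ) - c i j'| ≤ |x j' - c i j'| + |x j' - c i0 j'| := by
          have : (c i0 j' : ℝ) - c i j' = (x j' - c i j') - (x j' - c i0 j') := by ring
          rw [this]
          exact abs_sub _ _
        linarith
      · refine ⟨(min (c i0 j) v - w i0 j - (c i j + w i j)) / 2, by linarith, fun _ x hx hx' => ?_⟩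
        have h1 := abs_le.mp (hx j)
        have h2 := abs_le.mp (hx' j)
        simp only [hCj, hWj] at h2
        have hs' : (c i j : ℝ) + w i j < min (c i0 j : ℝ) v - w i0 j := by exact_mod_cast hs
        push_cast at h2
        have h4 : min (c i0 j : ℝ) v = ((c i0 j : ℝ) + v) / 2 - |(v : ℝ) - c i0 j| / 2 := by
          rcases le_total (c i0 j : ℝ) v with hle | hle
          · rw [min_eq_left hle, abs_of_nonneg (by linarith)]; ring
          · rw [min_eq_right hle, abs_of_nonpos (by linarith)]; ring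
        linarith [h1.1, h1.2, h2.1, h2.2]
      · refine ⟨(c i j - w i j - (max (c i0 j) v + w i0 j)) / 2, by linarith, fun _ x hx hx' => ?_⟩
        have h1 := abs_le.mp (hx j)
        have h2 := abs_le.mp (hx' j)
        simp only [hCj, hWj] at h2
        have hs' : max (c i0 j : ℝ) v + w i0 j < (c i j : ℝ) - w i j := by exact_mod_cast hs
        push_cast at h2
        have h4 : max (c i0 j : ℝ) v = ((c i0 j : ℝ) + v) / 2 + |(v : ℝ) - c i0 j| / 2 := by
          rcases le_total (c i0 j : ℝ) v with hle | hle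
          · rw [max_eq_right hle, abs_of_nonneg (by linarith)]; ring
          · rw [max_eq_left hle, abs_of_nonpos (by linarith)]; ring
        linarith [h1.1, h1.2, h2.1, h2.2]
  have key := Realizable.prim (fun i => box (c i) (w i)) i0 j (j + 1) (T10.succ_ne j)
    (v - c i0 j) 0 0 C W hW δ hδ ?_ hδP
  · refine key.congr (fun i x _ => ?_)
    by_cases hi : i = i0
    · subst hi
      simp only [Function.update_self]
      congr 1
      ext j'
      by_cases hj' : j' = j
      · subst hj'
        simp [ratPoint]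
      · simp [ratPoint, hj']
    · simp [Function.update_of_ne hi]
  · intro x hx l hl j'
    by_cases hj' : j' = j
    · subst hj'
      have h1 := abs_le.mp (hx j')
      rw [hCj, hWj]
      simp only [Pi.add_apply, Pi.smul_apply, Pi.single_eq_same, smul_eq_mul]
      push_cast
      have e : x j' + l * ((v : ℝ) - c i0 j' + 0 * (x (j' + 1) - 0)) * 1 - ((c i0 j' : ℝ) + v) / 2
          = (x j' - c i0 j') + (l - 1 / 2) * ((v : ℝ) - c i0 j') := by ring
      rw [e]
      have h2 : |(l - 1 / 2) * ((v : ℝ) - c i0 j')| ≤ |(v : ℝ) - c i0 j'| / 2 := by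
        rw [abs_mul]
        have : |l - 1 / 2| ≤ 1 / 2 := by
          rw [abs_le]; constructor <;> linarith [hl.1, hl.2]
        nlinarith [abs_nonneg ((v : ℝ) - c i0 j')]
      calc |(x j' - c i0 j') + (l - 1 / 2) * ((v : ℝ) - c i0 j')|
          ≤ |x j' - c i0 j'| + |(l - 1 / 2) * ((v : ℝ) - c i0 j')| := abs_add_le _ _
        _ ≤ |(v : ℝ) - c i0 j'| / 2 + w i0 j' := by linarith [hx j']
    · rw [hCne j' hj', hWne j' hj']
      simpa [hj'] using hx j'

theorem realizable_of_connected {n : ℕ} (w c c' : Fin n → Fin 3 → ℚ) (hw : ∀ i j, 0 < w i j)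
    (h : Relation.ReflTransGen (Step w) c c') :
    Realizable (fun i => box (c i) (w i)) (fun i x => x + (ratPoint (c' i) - ratPoint (c i))) := by
  induction h with
  | refl =>
    exact (Realizable.refl _).congr (fun i x _ => by simp)
  | tail _ hstep ih =>
    have h2 := realizable_of_step w _ _ hw hstep
    refine (ih.comp (fun i => T10.box_translate) h2).congr (fun i x _ => ?_)
    simp only [Function.comp]
    abel

end Crest.Agent.S0170Aux
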