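import Mathlib
import Crest.Agent.S0170Aux.Defs
import Crest.Agent.S0170Aux.Basic
import Crest.Agent.S0170Aux.Trans

/-! # S0170 auxiliary T11: rescaling all boxes in the standard configuration by shears

`diag(ρ, 1/ρ) = U(ρ-1) L(1) U(1/ρ-1) L(-ρ)` (apply `L(-ρ)` first), `U(a): x ↦ x + a y`, `L(b): y ↦ y + b x`;
`diag(ρ0,ρ1,ρ2) = D_{01}(ρ0) D_{12}(ρ0 ρ1)`. Each shear multiplies the sup-norm (about the cell centre) by at
most `1+|μ|`; work in the cube cell of half-size `M` about `stdCfg n L i`, `L > 2 M + 2`, `δ = 1`; process the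
boxes one after the other (`Realizable.prim`, `Realizable.comp`, `Realizable.mono`, `Realizable.congr`). -/

set_option autoImplicit false
open Crest.AnalysisR.BoxFlow

namespace Crest.Agent.S0170Aux

namespace T11

/-- the cube cell of half-size `M` about `c` -/
def cell (c : Fin 3 → ℚ) (M : ℚ) : Set E3 := box c (fun _ => M)

theorem mem_cell {c : Fin 3 → ℚ} {M : ℚ} {x : E3} :
    x ∈ cell c M ↔ ∀ j, |x j - (c j : ℝ)| ≤ (M : ℝ) := Iff.rfl

/-- shear about `c`: `x_{j1} += μ (x_{j2} - c_{j2})` -/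
def shear (c : Fin 3 → ℚ) (j1 j2 : Fin 3) (μ : ℚ) (x : E3) : E3 :=
  x + ((μ : ℝ) * (x j2 - (c j2 : ℝ))) • (Pi.single j1 (1 : ℝ) : E3)

theorem shear_apply (c : Fin 3 → ℚ) (j1 j2 : Fin 3) (μ : ℚ) (x : E3) (j : Fin 3) :
    shear c j1 j2 μ x j = x j + (if j = j1 then (μ : ℝ) * (x j2 - (c j2 : ℝ)) else 0) := by
  unfold shear
  by_cases h : j = j1
  · subst h; simp
  · simp [h]

theorem sweep_mem {c : Fin 3 → ℚ} {j1 j2 : Fin 3} {μ M M' : ℚ} (hM : 0 ≤ M)
    (hM' : (1 + |μ|) * M ≤ M') {x : E3} (hx : x ∈ cell c M) {l : ℝ} (hl : l ∈ Set.Icc (0 : ℝ) 1) :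
    x + (l * ((μ : ℝ) * (x j2 - (c j2 : ℝ)))) • (Pi.single j1 (1 : ℝ) : E3) ∈ cell c M' := by
  rw [mem_cell] at hx ⊢
  have hMM' : ((1 + |μ|) * M : ℝ) ≤ (M' : ℝ) := by exact_mod_cast hM'
  have hMr : (0 : ℝ) ≤ (M : ℝ) := by exact_mod_cast hM
  have hμ : (0 : ℝ) ≤ |(μ : ℝ)| := abs_nonneg _
  intro j
  by_cases h : j = j1
  · subst h
    simp only [Pi.add_apply, Pi.smul_apply, Pi.single_eq_same, smul_eq_mul, mul_one]
    have h1 := hx j
    have h2 := hx j2
    have h3 : |l * ((μ : ℝ) * (x j2 - (c j2 : ℝ)))| ≤ |(μ : ℝ)| * M := by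
      rw [abs_mul, abs_mul]
      have hl' : |l| ≤ 1 := by rw [abs_of_nonneg hl.1]; exact hl.2
      calc |l| * (|(μ : ℝ)| * |x j2 - (c j2 : ℝ)|) ≤ 1 * (|(μ : ℝ)| * M) := by
            apply mul_le_mul hl' _ (by positivity) (by norm_num)
            exact mul_le_mul_of_nonneg_left h2 hμ
        _ = |(μ : ℝ)| * M := one_mul _
    have h4 : x j + l * ((μ : ℝ) * (x j2 - (c j2 : ℝ))) - (c j : ℝ)
        = (x j - (c j : ℝ)) + l * ((μ : ℝ) * (x j2 - (c j2 : ℝ))) := by ring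
    rw [h4]
    calc _ ≤ |x j - (c j : ℝ)| + |l * ((μ : ℝ) * (x j2 - (c j2 : ℝ)))| := abs_add_le _ _
      _ ≤ M + |(μ : ℝ)| * M := add_le_add h1 h3
      _ = (1 + |(μ : ℝ)|) * M := by ring
      _ ≤ M' := by simpa using hMM'
  · simp only [Pi.add_apply, Pi.smul_apply, smul_eq_mul, Pi.single_eq_of_ne h, mul_zero, add_zero]
    calc _ ≤ (M : ℝ) := hx j
      _ ≤ (1 + |(μ : ℝ)|) * M := by nlinarith
      _ ≤ M' := by simpa using hMM'

theorem shear_mapsTo {c : Fin 3 → ℚ} {j1 j2 : Fin 3} {μ M M' : ℚ} (hM : 0 ≤ M)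
    (hM' : (1 + |μ|) * M ≤ M') : Set.MapsTo (shear c j1 j2 μ) (cell c M) (cell c M') := by
  intro x hx
  have := sweep_mem (j1 := j1) (j2 := j2) hM hM' hx (l := 1) ⟨by norm_num, le_refl _⟩
  simpa [shear] using this

theorem stdCfg_zero (n : ℕ) (L : ℚ) (i : Fin n) : stdCfg n L i 0 = ((i : ℕ) : ℚ) * L := by
  simp [stdCfg]

/-- points of a cell about another centre are outside the enlarged cell -/
theorem not_mem_of_ne {n : ℕ} {L M0 M1 : ℚ} (hL : M1 + M0 < L) (hM0 : 0 ≤ M0) (hM1 : 0 ≤ M1)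
    {i a : Fin n} (hia : i ≠ a)
    {x : E3} (hx : x ∈ cell (stdCfg n L i) M0) : x ∉ box (stdCfg n L a) (fun _ => M1) := by
  intro hx'
  have h1 := hx 0
  have h2 := hx' 0
  simp only [stdCfg_zero] at h1 h2
  push_cast at h1 h2
  have hLr : (M1 : ℝ) + M0 < L := by exact_mod_cast hL
  have hM0r : (0 : ℝ) ≤ M0 := by exact_mod_cast hM0
  have hM1r : (0 : ℝ) ≤ M1 := by exact_mod_cast hM1
  have hLpos : (0 : ℝ) < L := by linarith
  have hne : (i : ℕ) ≠ (a : ℕ) := fun h => hia (Fin.ext h)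
  rw [abs_le] at h1 h2
  rcases Nat.lt_or_gt_of_ne hne with h | h
  · have : ((i : ℕ) : ℝ) + 1 ≤ ((a : ℕ) : ℝ) := by exact_mod_cast h
    nlinarith
  · have : ((a : ℕ) : ℝ) + 1 ≤ ((i : ℕ) : ℝ) := by exact_mod_cast h
    nlinarith

theorem real_shear {n : ℕ} (L : ℚ) (S : Fin n → Set E3) (a : Fin n) (j1 j2 : Fin 3)
    (hj : j1 ≠ j2) (μ M M' M0 : ℚ) (hM : 0 < M) (hM0 : 0 ≤ M0) (hM' : (1 + |μ|) * M ≤ M')
    (hSa : S a ⊆ cell (stdCfg n L a) M)
    (hS : ∀ i, i ≠ a → S i ⊆ cell (stdCfg n L i) M0)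
    (hL : M' + 1 + M0 < L) :
    Realizable S (Function.update (fun _ => id) a (shear (stdCfg n L a) j1 j2 μ)) := by
  have hM'pos : 0 < M' := by
    have : 0 < (1 + |μ|) * M := by positivity
    linarith
  have key := Realizable.prim S a j1 j2 hj 0 μ (stdCfg n L a j2) (stdCfg n L a) (fun _ => M')
    (fun _ => hM'pos) 1 one_pos
    (by
      intro x hx l hl
      have := sweep_mem (j1 := j1) (j2 := j2) hM.le hM' (hSa hx) hl
      simpa [cell] using this)
    (by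
      intro i hi x hx
      exact not_mem_of_ne (M1 := M' + 1) hL hM0 (by linarith) hi (hS i hi hx))
  refine key.congr ?_
  intro i x _
  by_cases h : i = a
  · subst h
    simp [shear]
  · simp [Function.update_of_ne h]

theorem comp_at {n : ℕ} {S : Fin n → Set E3} {a : Fin n} {A' : Set E3} {f g : E3 → E3}
    (hf : Realizable S (Function.update (fun _ => id) a f))
    (hmap : Set.MapsTo f (S a) A')
    (hg : Realizable (Function.update S a A') (Function.update (fun _ => id) a g)) :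
    Realizable S (Function.update (fun _ => id) a (g ∘ f)) := by
  have h := Realizable.comp hf (S' := Function.update S a A') (by
    intro i
    by_cases h : i = a
    · subst h; simpa using hmap
    · simp only [Function.update_of_ne h]; exact Set.mapsTo_id _) hg
  refine h.congr ?_
  intro i x _
  by_cases h : i = a
  · subst h; simp
  · simp [Function.update_of_ne h]

/-- `diag(ρ, 1/ρ)` in the coordinate plane `(j1, j2)` about `c` -/
noncomputable def diag2 (c : Fin 3 → ℚ) (j1 j2 : Fin 3) (ρ : ℚ) (x : E3) : E3 :=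
  fun j => if j = j1 then (c j : ℝ) + (ρ : ℝ) * (x j - (c j : ℝ))
    else if j = j2 then (c j : ℝ) + (ρ : ℝ)⁻¹ * (x j - (c j : ℝ)) else x j

theorem four_shears (c : Fin 3 → ℚ) (j1 j2 : Fin 3) (hj : j1 ≠ j2) (ρ : ℚ) (hρ : ρ ≠ 0) (x : E3) :
    shear c j1 j2 (ρ - 1) (shear c j2 j1 1 (shear c j1 j2 (ρ⁻¹ - 1) (shear c j2 j1 (-ρ) x)))
      = diag2 c j1 j2 ρ x := by
  have hρ' : (ρ : ℝ) ≠ 0 := by exact_mod_cast hρ
  funext j
  simp only [shear_apply, diag2]
  by_cases h1 : j = j1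
  · subst h1
    simp [hj, hj.symm]
    field_simp
    ring
  · by_cases h2 : j = j2
    · subst h2
      simp [hj, hj.symm]
      field_simp
      ring
    · simp [h1, h2]

theorem two_le_add_inv {ρ : ℚ} (hρ : 0 < ρ) : 2 ≤ ρ + ρ⁻¹ := by
  have h : ρ * ρ⁻¹ = 1 := mul_inv_cancel₀ hρ.ne'
  have h2 := mul_nonneg (sq_nonneg (ρ - 1)) (inv_pos.mpr hρ).le
  have h3 : (ρ - 1) ^ 2 * ρ⁻¹ = ρ * (ρ * ρ⁻¹) - 2 * (ρ * ρ⁻¹) + ρ⁻¹ := by ring
  rw [h3, h] at h2
  linarith

theorem cell_mono {c : Fin 3 → ℚ} {M M' : ℚ} (h : M ≤ M') : cell c M ⊆ cell c M' := by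
  intro x hx j
  have : (M : ℝ) ≤ M' := by exact_mod_cast h
  exact (hx j).trans this

theorem real_diag2 {n : ℕ} (L : ℚ) (S : Fin n → Set E3) (a : Fin n) (j1 j2 : Fin 3)
    (hj : j1 ≠ j2) (ρ M M0 : ℚ) (hρ : 0 < ρ) (hM : 0 < M) (hM0 : 0 ≤ M0)
    (hSa : S a ⊆ cell (stdCfg n L a) M)
    (hS : ∀ i, i ≠ a → S i ⊆ cell (stdCfg n L i) M0)
    (hL : (1 + ρ + ρ⁻¹) ^ 4 * M + 1 + M0 < L) :
    Realizable S (Function.update (fun _ => id) a (diag2 (stdCfg n L a) j1 j2 ρ)) := by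
  set B : ℚ := 1 + ρ + ρ⁻¹ with hB
  set c := stdCfg n L a with hc
  have hinv : 0 < ρ⁻¹ := inv_pos.mpr hρ
  have h2 := two_le_add_inv hρ
  have hB1 : 1 ≤ B := by rw [hB]; linarith
  have hB0 : 0 < B := by linarith
  -- the four coefficients
  have a1 : 1 + |(-ρ)| ≤ B := by rw [abs_neg, abs_of_pos hρ, hB]; linarith
  have a2 : 1 + |ρ⁻¹ - 1| ≤ B := by
    have : |ρ⁻¹ - 1| ≤ ρ + ρ⁻¹ := by rw [abs_le]; constructor <;> linarith
    rw [hB]; linarith
  have a3 : 1 + |(1 : ℚ)| ≤ B := by rw [abs_one, hB]; linarith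
  have a4 : 1 + |ρ - 1| ≤ B := by
    have : |ρ - 1| ≤ ρ + ρ⁻¹ := by rw [abs_le]; constructor <;> linarith
    rw [hB]; linarith
  have p1 : 0 < B * M := by positivity
  have p2 : 0 < B ^ 2 * M := by positivity
  have p3 : 0 < B ^ 3 * M := by positivity
  have q1 : (1 + |(-ρ)|) * M ≤ B * M := mul_le_mul_of_nonneg_right a1 hM.le
  have q2 : (1 + |ρ⁻¹ - 1|) * (B * M) ≤ B ^ 2 * M := by
    calc _ ≤ B * (B * M) := mul_le_mul_of_nonneg_right a2 p1.le
      _ = B ^ 2 * M := by ring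
  have q3 : (1 + |(1 : ℚ)|) * (B ^ 2 * M) ≤ B ^ 3 * M := by
    calc _ ≤ B * (B ^ 2 * M) := mul_le_mul_of_nonneg_right a3 p2.le
      _ = B ^ 3 * M := by ring
  have q4 : (1 + |ρ - 1|) * (B ^ 3 * M) ≤ B ^ 4 * M := by
    calc _ ≤ B * (B ^ 3 * M) := mul_le_mul_of_nonneg_right a4 p3.le
      _ = B ^ 4 * M := by ring
  have e1 : B * M ≤ B ^ 4 * M := by
    apply mul_le_mul_of_nonneg_right _ hM.le
    calc B = B ^ 1 := (pow_one B).symm
      _ ≤ B ^ 4 := pow_le_pow_right₀ hB1 (by norm_num)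
  have e2 : B ^ 2 * M ≤ B ^ 4 * M :=
    mul_le_mul_of_nonneg_right (pow_le_pow_right₀ hB1 (by norm_num)) hM.le
  have e3 : B ^ 3 * M ≤ B ^ 4 * M :=
    mul_le_mul_of_nonneg_right (pow_le_pow_right₀ hB1 (by norm_num)) hM.le
  have hSu : ∀ (A : Set E3) (i : Fin n), i ≠ a → Function.update S a A i ⊆ cell (stdCfg n L i) M0 := by
    intro A i hi
    rw [Function.update_of_ne hi]; exact hS i hi
  have r1 := real_shear L S a j2 j1 hj.symm (-ρ) M (B * M) M0 hM hM0 q1 hSa hS (by linarith)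
  have r2 := real_shear L (Function.update S a (cell c (B * M))) a j1 j2 hj (ρ⁻¹ - 1) (B * M)
    (B ^ 2 * M) M0 p1 hM0 q2 (by simp [hc]) (hSu _) (by linarith)
  have r3 := real_shear L (Function.update S a (cell c (B ^ 2 * M))) a j2 j1 hj.symm 1 (B ^ 2 * M)
    (B ^ 3 * M) M0 p2 hM0 q3 (by simp [hc]) (hSu _) (by linarith)
  have r4 := real_shear L (Function.update S a (cell c (B ^ 3 * M))) a j1 j2 hj (ρ - 1) (B ^ 3 * M)
    (B ^ 4 * M) M0 p3 hM0 q4 (by simp [hc]) (hSu _) (by linarith)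
  have m1 : Set.MapsTo (shear c j2 j1 (-ρ)) (S a) (cell c (B * M)) :=
    (shear_mapsTo hM.le q1).mono_left hSa
  have m2 : Set.MapsTo (shear c j1 j2 (ρ⁻¹ - 1) ∘ shear c j2 j1 (-ρ)) (S a) (cell c (B ^ 2 * M)) :=
    (shear_mapsTo p1.le q2).comp m1
  have m3 : Set.MapsTo (shear c j2 j1 1 ∘ shear c j1 j2 (ρ⁻¹ - 1) ∘ shear c j2 j1 (-ρ)) (S a)
      (cell c (B ^ 3 * M)) := (shear_mapsTo p2.le q3).comp m2
  have r := comp_at (comp_at (comp_at r1 m1 r2) m2 r3) m3 r4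
  refine r.congr ?_
  intro i x _
  by_cases h : i = a
  · subst h
    simp only [Function.update_self, Function.comp_apply]
    exact four_shears c j1 j2 hj ρ hρ.ne' x
  · simp [Function.update_of_ne h]

theorem diag2_mapsTo (c : Fin 3 → ℚ) (j1 j2 : Fin 3) (ρ M : ℚ) (hρ : 0 < ρ) (hM : 0 ≤ M) :
    Set.MapsTo (diag2 c j1 j2 ρ) (cell c M) (cell c ((1 + ρ + ρ⁻¹) * M)) := by
  intro x hx j
  have hxj := hx j
  have hρr : (0 : ℝ) < ρ := by exact_mod_cast hρ
  have hinv : (0 : ℝ) < (ρ : ℝ)⁻¹ := inv_pos.mpr hρr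
  have hMr : (0 : ℝ) ≤ M := by exact_mod_cast hM
  have habs : 0 ≤ |x j - (c j : ℝ)| := abs_nonneg _
  push_cast
  unfold diag2
  by_cases h1 : j = j1
  · simp only [h1, if_true]
    rw [← h1, add_sub_cancel_left, abs_mul, abs_of_pos hρr]
    nlinarith
  · by_cases h2 : j = j2
    · simp only [h2, if_true]
      rw [if_neg (by rw [← h2]; exact h1), ← h2, add_sub_cancel_left, abs_mul, abs_of_pos hinv]
      nlinarith
    · simp only [h1, h2, if_false]
      nlinarith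

/-- the diagonal scaling about `c` -/
def scale3 (c ρ : Fin 3 → ℚ) (x : E3) : E3 :=
  fun j => (c j : ℝ) + (ρ j : ℝ) * (x j - (c j : ℝ))

theorem two_diag (c ρ : Fin 3 → ℚ) (hρ : ∀ j, 0 < ρ j) (hprod : ρ 0 * ρ 1 * ρ 2 = 1) (x : E3) :
    diag2 c 1 2 (ρ 0 * ρ 1) (diag2 c 0 1 (ρ 0) x) = scale3 c ρ x := by
  have h0 : (ρ 0 : ℝ) ≠ 0 := by exact_mod_cast (hρ 0).ne'
  have h1 : (ρ 1 : ℝ) ≠ 0 := by exact_mod_cast (hρ 1).ne'
  have hp : (ρ 0 : ℝ) * ρ 1 * ρ 2 = 1 := by exact_mod_cast hprod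
  funext j
  fin_cases j
  · simp [diag2, scale3]
  · simp [diag2, scale3]
    field_simp
  · simp [diag2, scale3]
    have : ((ρ 1 : ℝ))⁻¹ * ((ρ 0 : ℝ))⁻¹ = ρ 2 := by
      field_simp
      linarith
    left
    exact this

theorem real_scale3 {n : ℕ} (L : ℚ) (S : Fin n → Set E3) (a : Fin n) (ρ : Fin 3 → ℚ)
    (hρ : ∀ j, 0 < ρ j) (hprod : ρ 0 * ρ 1 * ρ 2 = 1) (M0 : ℚ) (hM0 : 0 < M0)
    (hS : ∀ i, S i ⊆ cell (stdCfg n L i) M0)
    (hL : (1 + ρ 0 * ρ 1 + (ρ 0 * ρ 1)⁻¹) ^ 4 * ((1 + ρ 0 + (ρ 0)⁻¹) ^ 4 * M0) + 1 + M0 < L) :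
    Realizable S (Function.update (fun _ => id) a (scale3 (stdCfg n L a) ρ)) := by
  set B1 : ℚ := 1 + ρ 0 + (ρ 0)⁻¹ with hB1
  set B2 : ℚ := 1 + ρ 0 * ρ 1 + (ρ 0 * ρ 1)⁻¹ with hB2
  set c := stdCfg n L a with hc
  have hr : 0 < ρ 0 * ρ 1 := mul_pos (hρ 0) (hρ 1)
  have b1 : 1 ≤ B1 := by have := two_le_add_inv (hρ 0); rw [hB1]; linarith
  have b2 : 1 ≤ B2 := by have := two_le_add_inv hr; rw [hB2]; linarith
  have b14 : B1 ≤ B1 ^ 4 := by
    calc B1 = B1 ^ 1 := (pow_one B1).symm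
      _ ≤ B1 ^ 4 := pow_le_pow_right₀ b1 (by norm_num)
  have b24 : 1 ≤ B2 ^ 4 := one_le_pow₀ b2
  have pos1 : 0 < B1 ^ 4 * M0 := by positivity
  have pos2 : 0 < B1 * M0 := by positivity
  have l1 : B1 ^ 4 * M0 ≤ B2 ^ 4 * (B1 ^ 4 * M0) := by nlinarith
  have l2 : B2 ^ 4 * (B1 * M0) ≤ B2 ^ 4 * (B1 ^ 4 * M0) := by
    apply mul_le_mul_of_nonneg_left _ (by positivity)
    exact mul_le_mul_of_nonneg_right b14 hM0.le
  have r1 := real_diag2 L S a 0 1 (by decide) (ρ 0) M0 M0 (hρ 0) hM0 hM0.le (hS a)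
    (fun i _ => hS i) (by linarith)
  have m1 : Set.MapsTo (diag2 c 0 1 (ρ 0)) (S a) (cell c (B1 * M0)) :=
    (diag2_mapsTo c 0 1 (ρ 0) M0 (hρ 0) hM0.le).mono_left (hS a)
  have r2 := real_diag2 L (Function.update S a (cell c (B1 * M0))) a 1 2 (by decide) (ρ 0 * ρ 1)
    (B1 * M0) M0 hr pos2 hM0.le (by simp [hc])
    (fun i hi => by rw [Function.update_of_ne hi]; exact hS i) (by linarith)
  refine (comp_at r1 m1 r2).congr ?_
  intro i x _
  by_cases h : i = a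
  · subst h
    simp only [Function.update_self, Function.comp_apply]
    exact two_diag c ρ hρ hprod x
  · simp [Function.update_of_ne h]

theorem scale3_mapsTo (c h k : Fin 3 → ℚ) (hh : ∀ j, 0 < h j) (hk : ∀ j, 0 < k j) :
    Set.MapsTo (scale3 c (fun j => k j / h j)) (box c h) (box c k) := by
  intro x hx j
  have hxj := hx j
  have hhr : (0 : ℝ) < h j := by exact_mod_cast hh j
  have hkr : (0 : ℝ) < k j := by exact_mod_cast hk j
  unfold scale3
  rw [add_sub_cancel_left, abs_mul]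
  push_cast
  rw [abs_of_pos (div_pos hkr hhr), div_mul_eq_mul_div, div_le_iff₀ hhr]
  exact mul_le_mul_of_nonneg_left hxj hkr.le

end T11

open T11 in
theorem realizable_scale {n : ℕ} (h k : Fin n → Fin 3 → ℚ) (hh : ∀ i j, 0 < h i j)
    (hk : ∀ i j, 0 < k i j) (hvol : ∀ i, ∏ j : Fin 3, k i j / h i j = 1) :
    ∃ L0 : ℚ, ∀ L : ℚ, L0 ≤ L →
      Realizable (fun i => box (stdCfg n L i) (h i))
        (fun i x j => (stdCfg n L i j : ℝ) + ((k i j / h i j : ℚ) : ℝ) * (x j - (stdCfg n L i j : ℝ))) := by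
  classical
  set ρ : Fin n → Fin 3 → ℚ := fun i j => k i j / h i j with hρdef
  have hρ : ∀ i j, 0 < ρ i j := fun i j => div_pos (hk i j) (hh i j)
  have hprod : ∀ i, ρ i 0 * ρ i 1 * ρ i 2 = 1 := by
    intro i
    have := hvol i
    rw [Fin.prod_univ_three] at this
    exact this
  set M0 : ℚ := ∑ i, ∑ j, (h i j + k i j) with hM0def
  have hterm : ∀ i j, 0 ≤ h i j + k i j := fun i j => (add_pos (hh i j) (hk i j)).le
  have hle : ∀ i j, h i j + k i j ≤ M0 := by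
    intro i j
    calc h i j + k i j ≤ ∑ j, (h i j + k i j) :=
          Finset.single_le_sum (f := fun j => h i j + k i j) (fun j _ => hterm i j) (Finset.mem_univ j)
      _ ≤ M0 := Finset.single_le_sum (f := fun i => ∑ j, (h i j + k i j))
          (fun i _ => Finset.sum_nonneg (fun j _ => hterm i j)) (Finset.mem_univ i)
  have hM0nn : 0 ≤ M0 := Finset.sum_nonneg (fun i _ => Finset.sum_nonneg (fun j _ => hterm i j))
  set K : Fin n → ℚ := fun a => (1 + ρ a 0 * ρ a 1 + (ρ a 0 * ρ a 1)⁻¹) ^ 4 *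
    ((1 + ρ a 0 + (ρ a 0)⁻¹) ^ 4 * M0) with hK
  have hKnn : ∀ a, 0 ≤ K a := by
    intro a
    have h1 : 0 < ρ a 0 := hρ a 0
    have h2 : 0 < ρ a 0 * ρ a 1 := mul_pos (hρ a 0) (hρ a 1)
    simp only [hK]
    positivity
  refine ⟨∑ a, K a + 1 + M0 + 1, ?_⟩
  intro L hL
  set c : Fin n → Fin 3 → ℚ := stdCfg n L with hc
  have main : ∀ P : Finset (Fin n), Realizable (fun i => box (c i) (h i))
      (fun i => if i ∈ P then scale3 (c i) (ρ i) else id) := by
    intro P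
    induction P using Finset.induction_on with
    | empty => simpa using Realizable.refl (fun i => box (c i) (h i))
    | insert a P ha ih =>
      set S' : Fin n → Set E3 := fun i => if i ∈ P then box (c i) (k i) else box (c i) (h i) with hS'
      have hmaps : ∀ i, Set.MapsTo (if i ∈ P then scale3 (c i) (ρ i) else id)
          (box (c i) (h i)) (S' i) := by
        intro i
        by_cases hi : i ∈ P
        · simp only [hS', hi, if_true]
          exact scale3_mapsTo (c i) (h i) (k i) (hh i) (hk i)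
        · simp only [hS', hi, if_false]
          exact Set.mapsTo_id _
      have hM0pos : 0 < M0 := lt_of_lt_of_le (add_pos (hh a 0) (hk a 0)) (hle a 0)
      have hS'sub : ∀ i, S' i ⊆ cell (stdCfg n L i) M0 := by
        intro i x hx j
        by_cases hi : i ∈ P
        · simp only [hS', hi, if_true] at hx
          have h1 : (k i j : ℝ) ≤ M0 := by
            have : k i j ≤ M0 := by linarith [hle i j, hh i j]
            exact_mod_cast this
          exact (hx j).trans h1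
        · simp only [hS', hi, if_false] at hx
          have h1 : (h i j : ℝ) ≤ M0 := by
            have : h i j ≤ M0 := by linarith [hle i j, hk i j]
            exact_mod_cast this
          exact (hx j).trans h1
      have hKa : K a ≤ ∑ a, K a :=
        Finset.single_le_sum (f := K) (fun a _ => hKnn a) (Finset.mem_univ a)
      have stage := real_scale3 L S' a (ρ a) (hρ a) (hprod a) M0 hM0pos hS'sub (by
        have : K a + 1 + M0 < L := by linarith
        simpa only [hK] using this)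
      refine (Realizable.comp ih hmaps stage).congr ?_
      intro i x _
      by_cases hi : i = a
      · subst hi
        simp [ha, hc]
      · simp [Finset.mem_insert, hi]
  have hfin := main Finset.univ
  simp only [Finset.mem_univ, if_true] at hfin
  exact hfin

end Crest.Agent.S0170Aux
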