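import Mathlib
import Crest.Agent.S0170Aux.Defs
import Crest.Agent.S0170Aux.StepBound
import Crest.Agent.S0170Aux.StepApprox
import Crest.Agent.S0170Aux.FinDiff
import Crest.Agent.S0170Aux.Eff1

/-! # S0170 auxiliary T8a: the one-dimensional building blocks of the primitive field -/

set_option autoImplicit false

namespace Crest.Agent.S0170Aux

theorem eff1_stepD' : Eff1 stepD :=
  eff1_of_approx0 stepD stepD_hasDerivAt stepD_bound (by rw [stepD_zero]; exact step_approx0)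

theorem stepD_zero_apply (x : ℝ) : stepD 0 x = Real.smoothTransition x := by
  rw [stepD_zero]

/-- time profile: a smooth step from `0` (before `τ0`) to `1` (after `τ1`) -/
theorem exists_timeFam (τ0 τ1 : ℚ) (hτ : τ0 < τ1) :
    ∃ σ : ℕ → ℝ → ℝ, Eff1 σ ∧ (∀ t : ℝ, t ≤ τ0 → σ 0 t = 0) ∧ (∀ t : ℝ, (τ1 : ℝ) ≤ t → σ 0 t = 1) ∧
      (∀ t, 0 ≤ σ 0 t ∧ σ 0 t ≤ 1) ∧
      (∀ k, 1 ≤ k → ∀ t : ℝ, (t ≤ τ0 ∨ (τ1 : ℝ) ≤ t) → σ k t = 0) := by
  have hd : (0 : ℝ) < (τ1 : ℝ) - τ0 := by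
    have : (τ0 : ℝ) < τ1 := by exact_mod_cast hτ
    linarith
  have harg : ∀ t : ℝ, (((1 / (τ1 - τ0) : ℚ) : ℝ) * t + ((-τ0 / (τ1 - τ0) : ℚ) : ℝ))
      = (t - τ0) / ((τ1 : ℝ) - τ0) := by
    intro t
    push_cast
    field_simp
    ring
  have hlow : ∀ t : ℝ, t ≤ τ0 → (t - τ0) / ((τ1 : ℝ) - τ0) ≤ 0 := fun t ht =>
    div_nonpos_of_nonpos_of_nonneg (by linarith) hd.le
  have hhigh : ∀ t : ℝ, (τ1 : ℝ) ≤ t → 1 ≤ (t - τ0) / ((τ1 : ℝ) - τ0) := fun t ht => by
    rw [le_div_iff₀ hd]; linarith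
  refine ⟨_, eff1_stepD'.comp_affine (1 / (τ1 - τ0)) (-τ0 / (τ1 - τ0)), ?_, ?_, ?_, ?_⟩
  · intro t ht
    simp only [harg, pow_zero, one_mul, stepD_zero_apply]
    exact Real.smoothTransition.zero_of_nonpos (hlow t ht)
  · intro t ht
    simp only [harg, pow_zero, one_mul, stepD_zero_apply]
    exact Real.smoothTransition.one_of_one_le (hhigh t ht)
  · intro t
    simp only [harg, pow_zero, one_mul, stepD_zero_apply]
    exact ⟨Real.smoothTransition.nonneg _, Real.smoothTransition.le_one _⟩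
  · intro k hk t ht
    simp only [harg]
    rw [stepD_eq_zero k hk _ (ht.imp (hlow t) (hhigh t)), mul_zero]

/-- plateau: `1` on `[c-w, c+w]`, `0` off `[c-w-δ, c+w+δ]` -/
theorem exists_plateau (c w δ : ℚ) (hw : 0 < w) (hδ : 0 < δ) :
    ∃ χ : ℕ → ℝ → ℝ, Eff1 χ ∧ (∀ y : ℝ, |y - c| ≤ w → χ 0 y = 1) ∧
      (∀ k, 1 ≤ k → ∀ y : ℝ, |y - c| ≤ w → χ k y = 0) ∧
      (∀ k, ∀ y : ℝ, (w : ℝ) + δ < |y - c| → χ k y = 0) := by
  have hd : (0 : ℝ) < (δ : ℝ) := by exact_mod_cast hδ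
  have hw' : (0 : ℝ) < (w : ℝ) := by exact_mod_cast hw
  have harg1 : ∀ y : ℝ, (((1 / δ : ℚ) : ℝ) * y + ((-(c - w - δ) / δ : ℚ) : ℝ))
      = (y - (c - w - δ)) / (δ : ℝ) := by
    intro y
    push_cast
    field_simp
    ring
  have harg2 : ∀ y : ℝ, (((1 / δ : ℚ) : ℝ) * y + ((-(c + w) / δ : ℚ) : ℝ))
      = (y - (c + w)) / (δ : ℝ) := by
    intro y
    push_cast
    field_simp
    ring
  refine ⟨_, (eff1_stepD'.comp_affine (1 / δ) (-(c - w - δ) / δ)).sub
    (eff1_stepD'.comp_affine (1 / δ) (-(c + w) / δ)), ?_, ?_, ?_⟩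
  · intro y hy
    rw [abs_le] at hy
    simp only [harg1, harg2, pow_zero, one_mul, stepD_zero_apply]
    rw [Real.smoothTransition.one_of_one_le (by rw [le_div_iff₀ hd]; linarith),
      Real.smoothTransition.zero_of_nonpos
        (div_nonpos_of_nonpos_of_nonneg (by linarith) hd.le), sub_zero]
  · intro k hk y hy
    rw [abs_le] at hy
    simp only [harg1, harg2]
    rw [stepD_eq_zero k hk _ (Or.inr (by rw [le_div_iff₀ hd]; linarith)),
      stepD_eq_zero k hk _ (Or.inl (div_nonpos_of_nonpos_of_nonneg (by linarith) hd.le))]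
    simp
  · intro k y hy
    simp only [harg1, harg2]
    rw [lt_abs] at hy
    rcases hy with hy | hy
    · -- far right: both arguments are ≥ 1
      have h1 : 1 ≤ (y - (c - w - δ)) / (δ : ℝ) := by rw [le_div_iff₀ hd]; linarith
      have h2 : 1 ≤ (y - (c + w)) / (δ : ℝ) := by rw [le_div_iff₀ hd]; linarith
      rcases Nat.eq_zero_or_pos k with rfl | hk
      · simp only [pow_zero, one_mul, stepD_zero_apply]
        rw [Real.smoothTransition.one_of_one_le h1, Real.smoothTransition.one_of_one_le h2,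
          sub_self]
      · rw [stepD_eq_zero k hk _ (Or.inr h1), stepD_eq_zero k hk _ (Or.inr h2)]
        simp
    · have h1 : (y - (c - w - δ)) / (δ : ℝ) ≤ 0 :=
        div_nonpos_of_nonpos_of_nonneg (by linarith) hd.le
      have h2 : (y - (c + w)) / (δ : ℝ) ≤ 0 :=
        div_nonpos_of_nonpos_of_nonneg (by linarith) hd.le
      rcases Nat.eq_zero_or_pos k with rfl | hk
      · simp only [pow_zero, one_mul, stepD_zero_apply]
        rw [Real.smoothTransition.zero_of_nonpos h1, Real.smoothTransition.zero_of_nonpos h2,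
          sub_self]
      · rw [stepD_eq_zero k hk _ (Or.inl h1), stepD_eq_zero k hk _ (Or.inl h2)]
        simp

/-- cut-off primitive of the affine function `α + μ (y - m)` -/
theorem exists_polyPlateau (c w δ α μ m : ℚ) (hw : 0 < w) (hδ : 0 < δ) :
    ∃ ψ : ℕ → ℝ → ℝ, Eff1 ψ ∧ (∀ y : ℝ, |y - c| ≤ w → ψ 1 y = α + μ * (y - m)) ∧
      (∀ k, ∀ y : ℝ, (w : ℝ) + δ < |y - c| → ψ k y = 0) := by
  obtain ⟨χ, hχ, h1, h0, hout⟩ := exists_plateau c w δ hw hδ
  obtain ⟨R, hR⟩ := exists_nat_ge (|(c : ℝ)| + w + δ)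
  have hfar : ∀ y : ℝ, (R : ℝ) < |y| → (w : ℝ) + δ < |y - c| := by
    intro y hy
    have := abs_sub_abs_le_abs_sub y (c : ℝ)
    linarith
  have hs1 : ∀ k x, (R : ℝ) < |x| → χ k x = 0 := fun k x hx => hout k x (hfar x hx)
  have hlin := hχ.mul_lin m R hs1
  have hs2 : ∀ k x, (R : ℝ) < |x| →
      (fun k x => (x - (m : ℝ)) * χ k x + (k : ℝ) * χ (k - 1) x) k x = 0 := by
    intro k x hx
    simp only [hs1 _ x hx, mul_zero, add_zero]
  have hquad := hlin.mul_lin m R hs2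
  refine ⟨_, (hlin.const_mul α).add (hquad.const_mul (μ / 2)), ?_, ?_⟩
  · intro y hy
    simp only [h1 y hy, h0 1 le_rfl y hy, Nat.sub_self, Nat.cast_one]
    push_cast
    ring
  · intro k y hy
    simp only [hout _ y hy, mul_zero, add_zero]

end Crest.Agent.S0170Aux
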